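import Vale.Agent.P221.T.H924.StdShift
import Vale.Agent.P221.T.H509.FGT

/-!
# P221 (helper924), part T: `stdSph_mu` in the notation `sphAdd`
-/

open CategoryTheory MonoidalCategory Limits Pretriangulated MonObj

set_option linter.unusedSectionVars false

universe u

namespace Vale.Agent.P221.T.H924

open Vale.Agent.P251 Vale.Agent.P251.S Vale.Agent.P251.T Vale.Agent.P251.M EvenSpheres

variable {𝒯 : Type u} [Category.{0} 𝒯] [Preadditive 𝒯] [HasZeroObject 𝒯]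
    [HasShift 𝒯 ℤ] [∀ n : ℤ, (shiftFunctor 𝒯 n).Additive] [Pretriangulated 𝒯] [IsTriangulated 𝒯]
    [MonoidalCategory 𝒯] [SymmetricCategory 𝒯] [TensorTriangulated 𝒯] [MonoidalClosed 𝒯]
    [HasCoproducts.{0} 𝒯] [HasProducts.{0} 𝒯] [StableCat 𝒯]

/-- **(S)** -/
theorem sphAdd_mu {m n l : ℤ} (hm : 0 ≤ m) (hn : 0 ≤ n) (h : m + n = l)
    (h' : 2 * n + 2 * m = 2 * l) :
    (sphAdd (𝒯 := 𝒯) h').hom ≫ ((stdSph m).inv ⊗ₘ (stdSph n).inv) ≫
      ((stdEven 𝒯).mu m n l h).hom = (stdSph l).inv := by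
  rw [← stdSph_mu hm hn h (by omega)]
  simp only [sphAdd, Iso.trans_hom, Iso.symm_hom, Category.assoc]
  rfl

end Vale.Agent.P221.T.H924
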