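import Vale.Agent.P221.T.H924.FreeAlg
import Vale.Agent.P221.T.H509.FGT

/-!
# P221 (helper924), part T: the fields `free` and `freeW` of `BPS` from statements modulo `p`

* `FB.of_int` : `FB` from non-homogeneous statements modulo `p` over a ring `A` with
  `ℤ_p = A + p ℤ_p`;
* `free_of`, `freeW_of` : the fields `free`, `freeW`.
-/

open CategoryTheory MonoidalCategory MonObj Limits Pretriangulated
open MvPolynomial

set_option linter.unusedSectionVars false

universe u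

namespace Vale.Agent.P221.T.H924

open Vale.Agent.P251.T Vale.Agent.P251.M Vale.Agent.P251.S
open Vale.Agent.P221.T.H746 Vale.Agent.P221.T.H769

section alg

variable {p : ℕ} [hp : Fact p.Prime] {M : Type} [AddCommGroup M] [Module (KK p) M]
  {J : Type} {d : J → ℤ} {A : Type} [CommRing A] {ι : A →+* ℤ_[p]}

/-- polynomials with coefficients in `A` represent all polynomials modulo `p` -/
theorem exists_int (hι : ∀ c : ℤ_[p], ∃ (a : A) (c' : ℤ_[p]), c = ι a + (p : ℤ_[p]) * c')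
    (f : KK p) : ∃ (G : MvPolynomial ℕ A) (h : KK p), f = MvPolynomial.map ι G + (p : KK p) * h := by
  choose a c' hc using hι
  refine ⟨∑ ν ∈ f.support, monomial ν (a (coeff ν f)),
    ∑ ν ∈ f.support, monomial ν (c' (coeff ν f)), ?_⟩
  conv_lhs => rw [← MvPolynomial.support_sum_monomial_coeff f]
  rw [map_sum, Finset.mul_sum, ← Finset.sum_add_distrib]
  refine Finset.sum_congr rfl fun ν _ => ?_
  have h6 : (p : KK p) = C (p : ℤ_[p]) := (map_natCast _ _).symm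
  rw [map_monomial, h6, C_mul_monomial, ← map_add]
  congr 1
  exact hc _

/-- the homogeneous component -/
noncomputable abbrev wc (p : ℕ) [Fact p.Prime] (m : ℤ) : KK p →ₗ[ℤ_[p]] KK p :=
  weightedHomogeneousComponent (fun i => sV p (i + 1)) m

theorem proj_smul {Mg : ℤ → AddSubgroup M}
    (smul_mem : ∀ {k m : ℤ} {f : KK p} {z : M}, HK p m f → z ∈ Mg k → f • z ∈ Mg (k + m))
    (pr : ℤ → M →+ M) (same : ∀ k, ∀ z ∈ Mg k, pr k z = z)
    (ne : ∀ k l, ∀ z ∈ Mg l, l ≠ k → pr k z = 0) {l : ℤ} {z : M} (hz : z ∈ Mg l) (k : ℤ)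
    (f : KK p) : pr k (f • z) = wc p (k - l) f • z := by
  induction f using MvPolynomial.induction_on' with
  | monomial ν c =>
    have h1 : HK p (dT p ν) (monomial ν c : KK p) := isWeightedHomogeneous_monomial _ _ _ rfl
    by_cases h : l + dT p ν = k
    · have h2 : wc p (k - l) (monomial ν c) = monomial ν c := by
        have h3 : k - l = dT p ν := by omega
        rw [h3]
        exact h1.weightedHomogeneousComponent_same
      rw [h2]
      refine same k _ ?_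
      rw [← h]
      exact smul_mem h1 hz
    · have h2 : wc p (k - l) (monomial ν c) = 0 :=
        h1.weightedHomogeneousComponent_ne _ (by omega)
      rw [h2, zero_smul]
      exact ne k _ _ (smul_mem h1 hz) h
  | add f g hf hg => rw [add_smul, map_add, hf, hg, map_add, add_smul]

/-- **from `A` to `ℤ_p`, and from arbitrary to homogeneous elements** -/
theorem FB.of_int (hι : ∀ c : ℤ_[p], ∃ (a : A) (c' : ℤ_[p]), c = ι a + (p : ℤ_[p]) * c')
    {Mg : ℤ → AddSubgroup M} {y : J → M} {hfin : ∀ k : ℤ, {j | d j ≤ k}.Finite}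
    (nonneg : ∀ j, 0 ≤ d j)
    (smul_mem : ∀ {k m : ℤ} {f : KK p} {z : M}, HK p m f → z ∈ Mg k → f • z ∈ Mg (k + m))
    (tf : ∀ k, ∀ z ∈ Mg k, (p : KK p) • z = 0 → z = 0)
    (uniq : ∀ k, Uniq p (Mg k)) (y_mem : ∀ j, y j ∈ Mg (d j))
    (pr : ℤ → M →+ M) (mem : ∀ k z, pr k z ∈ Mg k) (same : ∀ k, ∀ z ∈ Mg k, pr k z = z)
    (ne : ∀ k l, ∀ z ∈ Mg l, l ≠ k → pr k z = 0)
    (surj : ∀ k, ∀ z ∈ Mg k, ∃ (s : Finset J) (g : J → MvPolynomial ℕ A) (z' : M),
      z = ∑ j ∈ s, (MvPolynomial.map ι (g j) : KK p) • y j + (p : KK p) • z')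
    (inj : ∀ (s : Finset J) (g : J → MvPolynomial ℕ A) (z' : M),
      ∑ j ∈ s, (MvPolynomial.map ι (g j) : KK p) • y j = (p : KK p) • z' →
      ∀ j ∈ s, (p : MvPolynomial ℕ A) ∣ g j) : FB p d Mg y hfin where
  nonneg := nonneg
  smul_mem := smul_mem
  tf := tf
  uniq := uniq
  y_mem := y_mem
  surj k z hz := by
    classical
    obtain ⟨s, g, z', e⟩ := surj k z hz
    let g' : J → KK p := fun j => if j ∈ s then wc p (k - d j) (MvPolynomial.map ι (g j)) else 0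
    have hg' : ∀ j, HK p (k - d j) (g' j) := by
      intro j
      by_cases hj : j ∈ s
      · simp only [g', if_pos hj]
        exact weightedHomogeneousComponent_isWeightedHomogeneous _ _
      · simp only [g', if_neg hj]
        exact isWeightedHomogeneous_zero _ _ _
    refine ⟨g', hg', pr k z', mem k z', ?_⟩
    have h1 := congrArg (pr k) e
    have hp1 : ∀ w : M, (p : KK p) • w = p • w := fun w => p_smul w
    rw [same k z hz, map_add, map_sum, hp1, map_nsmul, ← hp1] at h1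
    rw [h1]
    congr 1
    have h2 : ∀ j ∈ s, pr k ((MvPolynomial.map ι (g j) : KK p) • y j) = g' j • y j := by
      intro j hj
      rw [proj_smul smul_mem pr same ne (y_mem j)]
      simp only [g', if_pos hj]
    rw [Finset.sum_congr rfl h2]
    have h3 : ∑ j ∈ s, g' j • y j = ∑ j ∈ s ∪ (hfin k).toFinset, g' j • y j := by
      refine Finset.sum_subset Finset.subset_union_left fun j _ hj => ?_
      simp only [g', if_neg hj, zero_smul]
    have h4 : ∑ j ∈ (hfin k).toFinset, g' j • y j =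
        ∑ j ∈ s ∪ (hfin k).toFinset, g' j • y j := by
      refine Finset.sum_subset Finset.subset_union_right fun j _ hj => ?_
      rw [Set.Finite.mem_toFinset] at hj
      have h5 : k < d j := not_le.1 hj
      rw [HK_neg (by omega) (hg' j), zero_smul]
    rw [h3, h4]
  inj k g hg z' hz' e j := by
    classical
    by_cases hj : j ∈ (hfin k).toFinset
    · choose G h hG using fun j => exists_int hι (g j)
      have h1 : ∑ j ∈ (hfin k).toFinset, (MvPolynomial.map ι (G j) : KK p) • y j =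
          (p : KK p) • (z' - ∑ j ∈ (hfin k).toFinset, h j • y j) := by
        rw [smul_sub, ← e, Finset.smul_sum, ← Finset.sum_sub_distrib]
        refine Finset.sum_congr rfl fun j _ => ?_
        conv_rhs => rw [hG j]
        rw [add_smul, mul_smul, add_sub_cancel_right]
      obtain ⟨G', hG'⟩ := inj _ _ _ h1 j hj
      rw [hG j, hG', map_mul, map_natCast, map_add, map_mul, map_mul, map_natCast]
      have h2 : (p : MvPolynomial ℕ (ZMod p)) = 0 := by
        have h3 : (p : MvPolynomial ℕ (ZMod p)) = C (p : ZMod p) := (map_natCast _ _).symm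
        rw [h3, ZMod.natCast_self, C_0]
      rw [h2, zero_mul, zero_mul, add_zero]
    · rw [Set.Finite.mem_toFinset] at hj
      have h5 : k < d j := not_le.1 hj
      rw [HK_neg (by omega) (hg j), map_zero]

end alg

section top

variable {𝒯 : Type u} [Category.{0} 𝒯] [Preadditive 𝒯] [HasZeroObject 𝒯]
    [HasShift 𝒯 ℤ] [∀ n : ℤ, (shiftFunctor 𝒯 n).Additive] [Pretriangulated 𝒯] [IsTriangulated 𝒯]
    [MonoidalCategory 𝒯] [SymmetricCategory 𝒯] [TensorTriangulated 𝒯] [MonoidalClosed 𝒯]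
    [HasCoproducts.{0} 𝒯] [HasProducts.{0} 𝒯] [StableCat 𝒯]
    {p : ℕ} [hp : Fact p.Prime] {R Y : 𝒯} [MonObj R] (M : ModStr R Y)
    (v : ∀ i : ℕ, (𝟙_ 𝒯)⟦sV p (i + 1)⟧ ⟶ R) (kk : KK p →+* AddMonoid.End (PiM Y))
    (kk_v : ∀ (i : ℕ) {k k' : ℤ} (h : k + sV p (i + 1) = k') (y : (𝟙_ 𝒯)⟦k⟧ ⟶ Y),
      kk (MvPolynomial.X i) (PiM.of Y k y) = PiM.of Y k' (mul M h (v i) y))
    (kk_C : ∀ (a : ℤ_[p]) {k : ℤ} (y : (𝟙_ 𝒯)⟦k⟧ ⟶ Y), ∃ z : (𝟙_ 𝒯)⟦k⟧ ⟶ Y,
      kk (C a) (PiM.of Y k y) = PiM.of Y k z)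

include kk_v kk_C in
theorem kk_monomial_mem' (E : ℕ →₀ ℕ) :
    ∀ (a : ℤ_[p]) (k : ℤ) (z : PiM Y), z ∈ PiM.gr Y k → kk (monomial E a) z ∈
      PiM.gr Y (k + Finsupp.weight (fun i => sV p (i + 1)) E) := by
  have hC : ∀ (a : ℤ_[p]) (k : ℤ) (z : PiM Y), z ∈ PiM.gr Y k → kk (C a) z ∈ PiM.gr Y k := by
    rintro a k _ ⟨z, rfl⟩
    obtain ⟨w, hw⟩ := kk_C a z
    rw [hw]
    exact ⟨w, rfl⟩
  have hX : ∀ (i : ℕ) (k : ℤ) (z : PiM Y), z ∈ PiM.gr Y k →
      kk (MvPolynomial.X i) z ∈ PiM.gr Y (k + sV p (i + 1)) := by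
    rintro i k _ ⟨z, rfl⟩
    rw [kk_v i rfl z]
    exact ⟨_, rfl⟩
  induction E using Finsupp.induction_linear with
  | zero =>
    intro a k z hz
    rw [map_zero, add_zero]
    exact hC a _ _ hz
  | add E F hE hF =>
    intro a k z hz
    have h1 : (monomial (E + F) a : KK p) = monomial E a * monomial F 1 := by
      rw [MvPolynomial.monomial_mul, _root_.mul_one]
    rw [h1, map_mul, map_add, add_comm (Finsupp.weight _ E), ← add_assoc]
    exact hE a _ _ (hF 1 k z hz)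
  | single i c =>
    induction c with
    | zero =>
      intro a k z hz
      rw [Finsupp.single_zero, map_zero, add_zero]
      exact hC a _ _ hz
    | succ c ih =>
      intro a k z hz
      have h1 : (monomial (Finsupp.single i (c + 1)) a : KK p) =
          MvPolynomial.X i * monomial (Finsupp.single i c) a := by
        rw [MvPolynomial.X, MvPolynomial.monomial_mul, _root_.one_mul, ← Finsupp.single_add,
          add_comm 1 c]
      rw [h1, map_mul]
      have h2 := hX i _ _ (ih a k z hz)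
      rwa [show k + Finsupp.weight (fun i => sV p (i + 1)) (Finsupp.single i c) + sV p (i + 1) =
        k + Finsupp.weight (fun i => sV p (i + 1)) (Finsupp.single i (c + 1)) by
          rw [Finsupp.weight_single, Finsupp.weight_single, succ_nsmul]
          ring] at h2

include kk_v kk_C in
theorem kk_mem' {k m : ℤ} {f : KK p} (hf : HK p m f) {z : PiM Y} (hz : z ∈ PiM.gr Y k) :
    kk f z ∈ PiM.gr Y (k + m) := by
  have h1 : kk f z = ∑ E ∈ f.support, kk (monomial E (coeff E f)) z := by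
    conv_lhs => rw [← MvPolynomial.support_sum_monomial_coeff f, map_sum]
    exact AddMonoidHom.finsetSum_apply _ _ _
  rw [h1]
  refine (PiM.gr Y (k + m)).sum_mem fun E hE => ?_
  rw [← hf (MvPolynomial.mem_support_iff.1 hE)]
  exact kk_monomial_mem' M v kk kk_v kk_C E _ _ z hz

/-- the component of degree `k` -/
noncomputable def prj (Y : 𝒯) (k : ℤ) : PiM Y →+ PiM Y :=
  (PiM.of Y k).comp (DFinsupp.evalAddMonoidHom k)

theorem prj_of (k : ℤ) (z : (𝟙_ 𝒯)⟦k⟧ ⟶ Y) : prj Y k (PiM.of Y k z) = PiM.of Y k z := by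
  change PiM.of Y k ((PiM.of Y k z) k) = _
  rw [DirectSum.of_eq_same]

theorem prj_of_ne {k l : ℤ} (h : l ≠ k) (z : (𝟙_ 𝒯)⟦l⟧ ⟶ Y) : prj Y k (PiM.of Y l z) = 0 := by
  change PiM.of Y k ((PiM.of Y l z) k) = _
  rw [DirectSum.of_eq_of_ne _ _ _ h.symm, map_zero]

variable {A : Type} [CommRing A] {ι : A →+* ℤ_[p]}
  (hι : ∀ c : ℤ_[p], ∃ (a : A) (c' : ℤ_[p]), c = ι a + (p : ℤ_[p]) * c')
  (hY : H395.PComplete p Y)
  (tf : ∀ (k : ℤ) (z : (𝟙_ 𝒯)⟦k⟧ ⟶ Y), p • z = 0 → z = 0)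

section gen

variable {J : Type} {d : J → ℤ} {hfin : ∀ k : ℤ, {j | d j ≤ k}.Finite}
  (nonneg : ∀ j, 0 ≤ d j) (y : ∀ j, (𝟙_ 𝒯)⟦d j⟧ ⟶ Y)
  (surj : ∀ (k : ℤ) (z : (𝟙_ 𝒯)⟦k⟧ ⟶ Y), ∃ (s : Finset J) (g : J → MvPolynomial ℕ A)
    (z' : PiM Y), PiM.of Y k z =
      ∑ j ∈ s, kk (MvPolynomial.map ι (g j)) (PiM.of Y (d j) (y j)) + p • z')
  (inj : ∀ (s : Finset J) (g : J → MvPolynomial ℕ A) (z' : PiM Y),
    ∑ j ∈ s, kk (MvPolynomial.map ι (g j)) (PiM.of Y (d j) (y j)) = p • z' →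
    ∀ j ∈ s, (p : MvPolynomial ℕ A) ∣ g j)

include kk_v kk_C hι hY tf nonneg surj inj in
theorem fb_of :
    letI : Module (KK p) (PiM Y) := Module.compHom _ kk
    FB p d (PiM.gr Y) (fun j => PiM.of Y (d j) (y j)) hfin := by
  let _ : Module (KK p) (PiM Y) := Module.compHom _ kk
  have hps : ∀ z : PiM Y, (p : KK p) • z = p • z := fun z => p_smul z
  refine FB.of_int (ι := ι) hι nonneg (fun hf hz => kk_mem' M v kk kk_v kk_C hf hz) ?_
    (fun k => H769.uniq_of_dc (BPS.dc_gr hY k)) (fun j => ⟨_, rfl⟩) (prj Y) (fun k z => ⟨_, rfl⟩)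
    ?_ ?_ ?_ ?_
  · rintro k _ ⟨z, rfl⟩ hz
    rw [hps, ← map_nsmul] at hz
    have h1 := PiM.of_injective Y k (hz.trans (map_zero _).symm)
    rw [tf k z h1, map_zero]
  · rintro k _ ⟨z, rfl⟩
    exact prj_of k z
  · rintro k l _ ⟨z, rfl⟩ h
    exact prj_of_ne h z
  · rintro k _ ⟨z, rfl⟩
    obtain ⟨s, g, z', e⟩ := surj k z
    exact ⟨s, g, z', by rw [hps]; exact e⟩
  · intro s g z' e
    rw [hps] at e
    exact inj s g z' e

end gen

include kk_v kk_C hι hY tf in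
/-- **the field `free`** -/
theorem free_of (y : (𝟙_ 𝒯)⟦(0 : ℤ)⟧ ⟶ Y)
    (surj : ∀ (k : ℤ) (z : (𝟙_ 𝒯)⟦k⟧ ⟶ Y), ∃ (g : MvPolynomial ℕ A) (z' : PiM Y),
      PiM.of Y k z = kk (MvPolynomial.map ι g) (PiM.of Y 0 y) + p • z')
    (inj : ∀ (g : MvPolynomial ℕ A) (z' : PiM Y),
      kk (MvPolynomial.map ι g) (PiM.of Y 0 y) = p • z' → (p : MvPolynomial ℕ A) ∣ g)
    (k : ℤ) (z : (𝟙_ 𝒯)⟦k⟧ ⟶ Y) :
    ∃! f : KK p, HK p k f ∧ PiM.of Y k z = kk f (PiM.of Y 0 y) := by
  classical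
  let _ : Module (KK p) (PiM Y) := Module.compHom _ kk
  refine FB.existsUnique_unit (hfin := fun k => Set.toFinite _)
    (fb_of M v kk kk_v kk_C hι hY tf (fun _ => le_rfl) (fun _ => y) ?_ ?_) k _ ⟨z, rfl⟩
  · intro k z
    obtain ⟨g, z', e⟩ := surj k z
    exact ⟨{()}, fun _ => g, z', by rw [Finset.sum_singleton]; exact e⟩
  · intro s g z' e j hj
    have hs : s = {()} := by
      ext j'
      simp only [Finset.mem_singleton, iff_true]
      exact hj
    rw [hs, Finset.sum_singleton] at e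
    exact inj _ z' e

include kk_v kk_C hι hY tf in
/-- **the field `freeW`** -/
theorem freeW_of (y : ∀ E : ℕ →₀ ℕ, (𝟙_ 𝒯)⟦dT p E⟧ ⟶ Y)
    (surj : ∀ (k : ℤ) (z : (𝟙_ 𝒯)⟦k⟧ ⟶ Y), ∃ (s : Finset (ℕ →₀ ℕ))
      (g : (ℕ →₀ ℕ) → MvPolynomial ℕ A) (z' : PiM Y), PiM.of Y k z =
        ∑ E ∈ s, kk (MvPolynomial.map ι (g E)) (PiM.of Y (dT p E) (y E)) + p • z')
    (inj : ∀ (s : Finset (ℕ →₀ ℕ)) (g : (ℕ →₀ ℕ) → MvPolynomial ℕ A) (z' : PiM Y),
      ∑ E ∈ s, kk (MvPolynomial.map ι (g E)) (PiM.of Y (dT p E) (y E)) = p • z' →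
      ∀ E ∈ s, (p : MvPolynomial ℕ A) ∣ g E)
    (k : ℤ) (z : (𝟙_ 𝒯)⟦k⟧ ⟶ Y) :
    ∃! g : GG p, (∀ E, HK p (k - dT p E) (coeff E g)) ∧
      PiM.of Y k z = ∑ E ∈ g.support, kk (coeff E g) (PiM.of Y (dT p E) (y E)) := by
  let _ : Module (KK p) (PiM Y) := Module.compHom _ kk
  exact FB.existsUnique_GG
    (fb_of M v kk kk_v kk_C hι hY tf (dT_nonneg' p) y surj inj) k _ ⟨z, rfl⟩

include kk_v kk_C hι hY tf in
/-- **the field `freeW`**, with polynomials over polynomials -/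
theorem freeW_of_poly (y : ∀ E : ℕ →₀ ℕ, (𝟙_ 𝒯)⟦dT p E⟧ ⟶ Y)
    (surj : ∀ (k : ℤ) (z : (𝟙_ 𝒯)⟦k⟧ ⟶ Y), ∃ (g : MvPolynomial ℕ (MvPolynomial ℕ A))
      (z' : PiM Y), PiM.of Y k z = ∑ E ∈ g.support,
        kk (MvPolynomial.map ι (coeff E g)) (PiM.of Y (dT p E) (y E)) + p • z')
    (inj : ∀ (g : MvPolynomial ℕ (MvPolynomial ℕ A)) (z' : PiM Y),
      ∑ E ∈ g.support, kk (MvPolynomial.map ι (coeff E g)) (PiM.of Y (dT p E) (y E)) = p • z' →
      ∀ E, (p : MvPolynomial ℕ A) ∣ coeff E g)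
    (k : ℤ) (z : (𝟙_ 𝒯)⟦k⟧ ⟶ Y) :
    ∃! g : GG p, (∀ E, HK p (k - dT p E) (coeff E g)) ∧
      PiM.of Y k z = ∑ E ∈ g.support, kk (coeff E g) (PiM.of Y (dT p E) (y E)) := by
  classical
  refine freeW_of M v kk kk_v kk_C hι hY tf y (fun k z => ?_) (fun s g z' e E hE => ?_) k z
  · obtain ⟨g, z', e⟩ := surj k z
    exact ⟨g.support, fun E => coeff E g, z', e⟩
  · have hco : ∀ E, coeff E (∑ F ∈ s, monomial F (g F) : MvPolynomial ℕ (MvPolynomial ℕ A)) =
        if E ∈ s then g E else 0 := by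
      intro E
      rw [coeff_sum]
      split_ifs with hE
      · rw [Finset.sum_eq_single E]
        · rw [coeff_monomial, if_pos rfl]
        · intro F _ hF
          rw [coeff_monomial, if_neg hF]
        · intro h
          exact absurd hE h
      · refine Finset.sum_eq_zero fun F hF => ?_
        rw [coeff_monomial, if_neg]
        rintro rfl
        exact hE hF
    have h1 : ∑ E ∈ (∑ F ∈ s, monomial F (g F) : MvPolynomial ℕ (MvPolynomial ℕ A)).support,
        kk (MvPolynomial.map ι (coeff E (∑ F ∈ s, monomial F (g F) :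
          MvPolynomial ℕ (MvPolynomial ℕ A)))) (PiM.of Y (dT p E) (y E)) = p • z' := by
      rw [← e]
      have h2 : ∀ E ∈ s, kk (MvPolynomial.map ι (g E)) (PiM.of Y (dT p E) (y E)) =
          kk (MvPolynomial.map ι (coeff E (∑ F ∈ s, monomial F (g F) :
            MvPolynomial ℕ (MvPolynomial ℕ A)))) (PiM.of Y (dT p E) (y E)) := by
        intro E hE
        rw [hco, if_pos hE]
      rw [Finset.sum_congr rfl h2]
      refine Finset.sum_subset ?_ ?_
      · intro E hE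
        by_contra hE'
        refine mem_support_iff.1 hE ?_
        rw [hco, if_neg hE']
      · intro E _ hE
        rw [notMem_support_iff.1 hE, map_zero, map_zero]
        rfl
    have h2 := inj _ z' h1 E
    rwa [hco, if_pos hE] at h2

end top

/-! ### the coefficient rings -/

/-- `A = ℤ` -/
theorem hι_int (p : ℕ) [Fact p.Prime] (c : ℤ_[p]) :
    ∃ (a : ℤ) (c' : ℤ_[p]), c = Int.castRingHom ℤ_[p] a + (p : ℤ_[p]) * c' := by
  obtain ⟨a, ha⟩ := ZMod.intCast_surjective (PadicInt.toZMod c)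
  obtain ⟨c', hc'⟩ := dvd_of_toZMod p (a := c - (a : ℤ_[p])) (by
    rw [map_sub, map_intCast, ha, sub_self])
  exact ⟨a, c', by rw [← hc', eq_intCast]; ring⟩

/-- any ring `A → ℤ_p` -/
theorem hι_of {A : Type} [CommRing A] (p : ℕ) [Fact p.Prime] (ι : A →+* ℤ_[p]) (c : ℤ_[p]) :
    ∃ (a : A) (c' : ℤ_[p]), c = ι a + (p : ℤ_[p]) * c' := by
  obtain ⟨a, c', h⟩ := hι_int p c
  exact ⟨(a : A), c', by rw [map_intCast]; exact h⟩

end Vale.Agent.P221.T.H924
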