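import Vale.Agent.P221.T.H746.IpLem
import Vale.Agent.P221.T.H769.DC
import Vale.Agent.P221.H924.Alg

/-!
# P221 (helper924), part T: forms, algebra

`BF p n Mg y ξ` : `Mg k` torsion free and `p`-complete groups with an action of `ℤ_p[v_1, v_2, …]`,
generated by `y` modulo `p` with annihilator `(ξ_j : j ≥ n)` modulo `p`.

* `BF.existsUnique` : `Mg` is free over `ℤ_p[v_1, …, v_n]` on `y`;
* `BF.exists_x` : the generators `x_l` with `x_l • y = 0`, `x_l - v_{n+1+l} ∈ I²`.
-/

open MvPolynomial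

namespace Vale.Agent.P221.T.H924

open Vale.Agent.P221.H924 Vale.Agent.P221.T.H746 Vale.Agent.P221.T.H769 Vale.Agent.P257.H80
  Vale.Agent.P251.F

set_option linter.unusedSectionVars false

/-! ### change of generators over `𝔽_p` -/

section gen

variable (p : ℕ) [hp : Fact p.Prime] (g : ℕ → MvPolynomial ℕ (ZMod p))
  (hg : ∀ a, (g a).IsWeightedHomogeneous (wN p) (wN p a))
  (hgc : ∀ a, coeff (Finsupp.single a 1) (g a) ≠ 0)

include hg hgc in
theorem gen_bij : Function.Bijective (aeval (R := ZMod p) g) := by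
  refine bijective_of_triangular (c := fun a => coeff (Finsupp.single a 1) (g a))
    (fun a => (hgc a).isUnit)
    (s := fun a => g a - C (coeff (Finsupp.single a 1) (g a)) * X a)
    (fun a => tri_mem p (hg a)) (fun a => ?_)
  rw [aeval_X]
  ring

/-- the change of generators -/
noncomputable def gE : MvPolynomial ℕ (ZMod p) ≃ₐ[ZMod p] MvPolynomial ℕ (ZMod p) :=
  AlgEquiv.ofBijective (aeval g) (gen_bij p g hg hgc)

theorem gE_apply (f : MvPolynomial ℕ (ZMod p)) : gE p g hg hgc f = aeval g f := rfl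

/-- the inverse of the change of generators is homogeneous -/
theorem gE_symm_isWH {f : MvPolynomial ℕ (ZMod p)} {m : ℕ}
    (hf : f.IsWeightedHomogeneous (wN p) m) :
    ((gE p g hg hgc).symm f).IsWeightedHomogeneous (wN p) m := by
  classical
  set h := (gE p g hg hgc).symm f with hh
  have h1 : gE p g hg hgc h = f := AlgEquiv.apply_symm_apply _ _
  have h2 : ∀ {h : MvPolynomial ℕ (ZMod p)} {l : ℕ}, h.IsWeightedHomogeneous (wN p) l →
      (gE p g hg hgc h).IsWeightedHomogeneous (wN p) l := fun hh => aeval_isWH hg hh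
  have h3 : gE p g hg hgc (weightedHomogeneousComponent (wN p) m h) = f := by
    have h4 : weightedHomogeneousComponent (wN p) m f = f :=
      hf.weightedHomogeneousComponent_same
    have hfin := weightedHomogeneousComponent_finsupp (w := wN p) (φ := h)
    have h5 : h = ∑ l ∈ hfin.toFinset, weightedHomogeneousComponent (wN p) l h := by
      conv_lhs => rw [← sum_weightedHomogeneousComponent (wN p) h]
      exact finsum_eq_sum _ hfin
    have h6 : f = ∑ l ∈ hfin.toFinset,
        gE p g hg hgc (weightedHomogeneousComponent (wN p) l h) := by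
      rw [← map_sum, ← h5, h1]
    have h7 : weightedHomogeneousComponent (wN p) m f =
        ∑ l ∈ hfin.toFinset, weightedHomogeneousComponent (wN p) m
          (gE p g hg hgc (weightedHomogeneousComponent (wN p) l h)) := by
      conv_lhs => rw [h6]
      rw [map_sum]
    rw [h4] at h7
    rw [h7]
    have h8 : ∀ l ∈ hfin.toFinset, weightedHomogeneousComponent (wN p) m
          (gE p g hg hgc (weightedHomogeneousComponent (wN p) l h)) =
        if l = m then gE p g hg hgc (weightedHomogeneousComponent (wN p) l h) else 0 := by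
      intro l _
      have h9 := h2 (weightedHomogeneousComponent_isWeightedHomogeneous (w := wN p) l h)
      split_ifs with hl
      · subst hl
        exact h9.weightedHomogeneousComponent_same
      · exact h9.weightedHomogeneousComponent_ne m (fun h => hl h.symm)
    rw [Finset.sum_congr rfl h8, Finset.sum_ite_eq']
    split_ifs with hm
    · rfl
    · have hm' := mt (Set.Finite.mem_toFinset hfin).2 hm
      rw [Function.mem_support, not_not] at hm'
      rw [hm', map_zero]
  have h4 : h = weightedHomogeneousComponent (wN p) m h :=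
    (gE p g hg hgc).injective (h1.trans h3.symm)
  rw [h4]
  exact weightedHomogeneousComponent_isWeightedHomogeneous m h

end gen

section mod

variable (p : ℕ) [hp : Fact p.Prime] {n : ℕ} {ξ : ℕ → MvPolynomial ℕ (ZMod p)}
  (hx : ∀ j, n ≤ j → (ξ j).IsWeightedHomogeneous (wN p) (wN p j))
  (hc : ∀ j, n ≤ j → coeff (Finsupp.single j 1) (ξ j) ≠ 0)

/-- the generators `v_1, …, v_n, ξ_j` -/
noncomputable def gX (p n : ℕ) (ξ : ℕ → MvPolynomial ℕ (ZMod p)) (a : ℕ) :
    MvPolynomial ℕ (ZMod p) := if a < n then X a else ξ a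

include hx in
theorem gX_isWH (a : ℕ) : (gX p n ξ a).IsWeightedHomogeneous (wN p) (wN p a) := by
  unfold gX
  split_ifs with h
  · exact isWeightedHomogeneous_X _ _ _
  · exact hx a (by omega)

include hc in
theorem coeff_gX (a : ℕ) : coeff (Finsupp.single a 1) (gX p n ξ a) ≠ 0 := by
  unfold gX
  split_ifs with h
  · rw [coeff_X, if_pos rfl]
    exact one_ne_zero
  · exact hc a (by omega)

theorem aeval_gX_incl (f : MvPolynomial (Fin n) (ZMod p)) :
    aeval (gX p n ξ) (incl (ZMod p) f) = incl (ZMod p) f := by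
  have h : ((aeval (gX p n ξ)).comp (incl (ZMod p)) :
      MvPolynomial (Fin n) (ZMod p) →ₐ[ZMod p] _) = incl (ZMod p) := by
    apply algHom_ext
    intro i
    rw [AlgHom.comp_apply, incl, rename_X, aeval_X, gX, if_pos i.2]
  exact congrArg (fun g => g f) h

include hx hc in
/-- every homogeneous polynomial is congruent to a homogeneous polynomial in `v_1, …, v_n` -/
theorem exists_mod {f : MvPolynomial ℕ (ZMod p)} {m : ℕ}
    (hf : f.IsWeightedHomogeneous (wN p) m) : ∃ g : MvPolynomial (Fin n) (ZMod p),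
      g.IsWeightedHomogeneous (fun a : Fin n => wN p a) m ∧
        f - incl (ZMod p) g ∈ Ideal.span (ξ '' {j : ℕ | n ≤ j}) := by
  let e := gE p (gX p n ξ) (gX_isWH p hx) (coeff_gX p hc)
  refine ⟨Vale.Agent.P221.H924.trunc (ZMod p) n (e.symm f), trunc_isWH p (gE_symm_isWH p _ _ _ hf), ?_⟩
  have h1 := sub_incl_trunc_mem (n := n) (ZMod p) (e.symm f)
  have h2 := Ideal.mem_map_of_mem (e : MvPolynomial ℕ (ZMod p) →+* MvPolynomial ℕ (ZMod p)) h1
  rw [Ideal.map_span, Set.image_image] at h2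
  have h3 : (fun j => (e : MvPolynomial ℕ (ZMod p) →+* MvPolynomial ℕ (ZMod p)) (X j)) ''
      {j : ℕ | n ≤ j} = ξ '' {j : ℕ | n ≤ j} := by
    refine Set.image_congr fun j hj => ?_
    have hj' : ¬ j < n := not_lt.2 hj
    change aeval (gX p n ξ) (X j) = ξ j
    rw [aeval_X, gX, if_neg hj']
  rw [h3] at h2
  have h4 : (e : MvPolynomial ℕ (ZMod p) →+* MvPolynomial ℕ (ZMod p))
      (e.symm f - incl (ZMod p) (Vale.Agent.P221.H924.trunc (ZMod p) n (e.symm f))) =
        f - incl (ZMod p) (Vale.Agent.P221.H924.trunc (ZMod p) n (e.symm f)) := by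
    rw [map_sub]
    congr 1
    · exact e.apply_symm_apply f
    · exact aeval_gX_incl p _
  rwa [h4] at h2

include hx hc in
/-- polynomials in `v_1, …, v_n` in the ideal vanish -/
theorem eq_zero_of_incl_mem {g : MvPolynomial (Fin n) (ZMod p)}
    (h : incl (ZMod p) g ∈ Ideal.span (ξ '' {j : ℕ | n ≤ j})) : g = 0 := by
  let e := gE p (gX p n ξ) (gX_isWH p hx) (coeff_gX p hc)
  have h2 := Ideal.mem_map_of_mem
    (e.symm : MvPolynomial ℕ (ZMod p) →+* MvPolynomial ℕ (ZMod p)) h
  rw [Ideal.map_span, Set.image_image] at h2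
  have h3 : (fun j => (e.symm : MvPolynomial ℕ (ZMod p) →+* MvPolynomial ℕ (ZMod p)) (ξ j)) ''
      {j : ℕ | n ≤ j} = X '' {j : ℕ | n ≤ j} := by
    refine Set.image_congr fun j hj => ?_
    have hj' : ¬ j < n := not_lt.2 hj
    change e.symm (ξ j) = X j
    rw [AlgEquiv.symm_apply_eq]
    change ξ j = aeval (gX p n ξ) (X j)
    rw [aeval_X, gX, if_neg hj']
  rw [h3] at h2
  have h4 : (e.symm : MvPolynomial ℕ (ZMod p) →+* MvPolynomial ℕ (ZMod p)) (incl (ZMod p) g) =
      incl (ZMod p) g := by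
    change e.symm _ = _
    rw [AlgEquiv.symm_apply_eq]
    exact (aeval_gX_incl p g).symm
  rw [h4, ← trunc_eq_zero_iff, trunc_incl] at h2
  exact h2

end mod

/-! ### lifting to `ℤ_p` -/

section lift

variable (p : ℕ) [hp : Fact p.Prime] {n : ℕ}

/-- reduction modulo `p` -/
noncomputable def red : KK p →+* MvPolynomial ℕ (ZMod p) := MvPolynomial.map PadicInt.toZMod

theorem sV_eq (i : ℕ) : sV p (i + 1) = 2 * ((wN p i : ℕ) : ℤ) := by
  unfold sV wN
  have h : 1 ≤ p ^ (i + 1) := Nat.one_le_pow _ _ hp.out.pos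
  push_cast [Nat.cast_sub h]
  rfl

theorem weight_sV {σ : Type} (v : σ → ℕ) (d : σ →₀ ℕ) :
    Finsupp.weight (fun i => sV p (v i + 1)) d =
      2 * ((Finsupp.weight (fun i => wN p (v i)) d : ℕ) : ℤ) := by
  rw [Finsupp.weight_apply, Finsupp.weight_apply, Finsupp.sum, Finsupp.sum, Nat.cast_sum,
    Finset.mul_sum]
  refine Finset.sum_congr rfl fun a _ => ?_
  rw [sV_eq, nsmul_eq_mul, smul_eq_mul, Nat.cast_mul]
  ring

/-- reductions of homogeneous polynomials -/
theorem red_isWH {f : KK p} {m : ℕ} (hf : HK p (2 * (m : ℤ)) f) :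
    (red p f).IsWeightedHomogeneous (wN p) m := by
  intro d hd
  rw [red, coeff_map] at hd
  have h1 := @hf d (fun h0 => hd (by rw [h0, map_zero]))
  rw [weight_sV p (fun i => i)] at h1
  have h2 : ((Finsupp.weight (wN p) d : ℕ) : ℤ) = (m : ℤ) := by linarith
  exact Nat.cast_injective h2

/-- homogeneous polynomials exist only in even degrees `≥ 0` -/
theorem eq_zero_or {f : KK p} {k : ℤ} (hf : HK p k f) : f = 0 ∨ ∃ m : ℕ, k = 2 * (m : ℤ) := by
  by_cases h : f = 0
  · exact Or.inl h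
  · obtain ⟨d, hd⟩ := exists_coeff_ne_zero h
    have h1 := @hf d hd
    rw [weight_sV p (fun i => i)] at h1
    exact Or.inr ⟨_, h1.symm⟩

theorem toZMod_surjective : Function.Surjective (PadicInt.toZMod : ℤ_[p] →+* ZMod p) := by
  intro a
  obtain ⟨m, rfl⟩ := ZMod.intCast_surjective a
  exact ⟨(m : ℤ_[p]), by rw [map_intCast]⟩

theorem dvd_of_toZMod {a : ℤ_[p]} (h : PadicInt.toZMod a = 0) : (p : ℤ_[p]) ∣ a := by
  have h1 : a ∈ RingHom.ker (PadicInt.toZMod : ℤ_[p] →+* ZMod p) := h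
  rw [PadicInt.ker_toZMod, PadicInt.maximalIdeal_eq_span_p, Ideal.mem_span_singleton] at h1
  exact h1

end lift

/-! ### The theorem -/

section bf

variable (p n : ℕ) [hp : Fact p.Prime] {M : Type} [AddCommGroup M] [Module (KK p) M]

/-- `M` is generated by `y` modulo `p`, with annihilator `(ξ_j : j ≥ n)` -/
structure BF (Mg : ℤ → AddSubgroup M) (y : M) (ξ : ℕ → MvPolynomial ℕ (ZMod p)) : Prop where
  smul_mem : ∀ {k m : ℤ} {f : KK p} {z : M}, HK p m f → z ∈ Mg k → f • z ∈ Mg (k + m)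
  tf : ∀ k, ∀ z ∈ Mg k, (p : KK p) • z = 0 → z = 0
  uniq : ∀ k, Uniq p (Mg k)
  y_mem : y ∈ Mg 0
  surj : ∀ k, ∀ z ∈ Mg k, ∃ f, HK p k f ∧ ∃ z' ∈ Mg k, z = f • y + (p : KK p) • z'
  ker : ∀ (k : ℤ) (f : KK p), HK p k f →
    ((∃ z' ∈ Mg k, f • y = (p : KK p) • z') ↔ red p f ∈ Ideal.span (ξ '' {j : ℕ | n ≤ j}))
  hom : ∀ j, n ≤ j → (ξ j).IsWeightedHomogeneous (wN p) (wN p j)
  ne : ∀ j, n ≤ j → coeff (Finsupp.single j 1) (ξ j) ≠ 0

variable {p n}

/-- the monomials of degree `k` -/
abbrev Mon (p n : ℕ) (k : ℤ) : Type :=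
  {μ : Fin n →₀ ℕ // Finsupp.weight (fun i : Fin n => sV p ((i : ℕ) + 1)) μ = k}

noncomputable instance (k : ℤ) : Fintype (Mon p n k) := (finite_weight p k).fintype

/-- the homogeneous polynomial with given coefficients -/
noncomputable def pol {k : ℤ} (c : Mon p n k → ℤ_[p]) : MvPolynomial (Fin n) ℤ_[p] :=
  ∑ i, monomial i.1 (c i)

theorem coeff_pol {k : ℤ} (c : Mon p n k → ℤ_[p]) (i : Mon p n k) :
    coeff i.1 (pol c) = c i := by
  classical
  rw [pol, coeff_sum, Finset.sum_eq_single i]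
  · rw [coeff_monomial, if_pos rfl]
  · intro j _ hj
    rw [coeff_monomial, if_neg (fun h => hj (Subtype.ext h))]
  · intro h
    exact absurd (Finset.mem_univ i) h

theorem pol_hom {k : ℤ} (c : Mon p n k → ℤ_[p]) : HK p k (RN p n (pol c)) := by
  rw [HK_RN_iff]
  refine (weightedHomogeneousSubmodule ℤ_[p] _ k).sum_mem fun i _ => ?_
  rw [mem_weightedHomogeneousSubmodule]
  exact isWeightedHomogeneous_monomial _ _ _ i.2

theorem eq_pol {k : ℤ} {f : MvPolynomial (Fin n) ℤ_[p]} (hf : HK p k (RN p n f)) :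
    f = pol fun i : Mon p n k => coeff i.1 f := by
  rw [HK_RN_iff] at hf
  ext μ
  by_cases h : Finsupp.weight (fun i : Fin n => sV p ((i : ℕ) + 1)) μ = k
  · exact (coeff_pol (fun i : Mon p n k => coeff i.1 f) ⟨μ, h⟩).symm
  · have h1 : coeff μ f = 0 := by
      by_contra hne
      exact h (hf hne)
    rw [h1, pol, coeff_sum]
    refine (Finset.sum_eq_zero fun i _ => ?_).symm
    classical
    rw [coeff_monomial, if_neg (fun hh => h (by rw [← hh]; exact i.2))]

theorem p_smul (z : M) : (p : KK p) • z = p • z := Nat.cast_smul_eq_nsmul _ _ _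

theorem red_RN (f : MvPolynomial (Fin n) ℤ_[p]) :
    red p (RN p n f) = incl (ZMod p) (MvPolynomial.map PadicInt.toZMod f) := by
  rw [red, incl]
  exact MvPolynomial.map_rename _ _ _

namespace BF

variable {Mg : ℤ → AddSubgroup M} {y : M} {ξ : ℕ → MvPolynomial ℕ (ZMod p)} (H : BF p n Mg y ξ)

include H

theorem C_smul_mem {k : ℤ} (c : ℤ_[p]) {z : M} (hz : z ∈ Mg k) : (C c : KK p) • z ∈ Mg k := by
  have h := H.smul_mem (k := k) (m := 0) (f := (C c : KK p)) (isWeightedHomogeneous_C _ _) hz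
  rwa [add_zero] at h

/-- the `ℤ_p`-module structure -/
@[reducible]
noncomputable def zmod (k : ℤ) : Module ℤ_[p] (Mg k) where
  smul c z := ⟨(C c : KK p) • (z : M), H.C_smul_mem c z.2⟩
  one_smul z := Subtype.ext (by
    change (C 1 : KK p) • (z : M) = z
    rw [C_1, one_smul])
  mul_smul c d z := Subtype.ext (by
    change (C (c * d) : KK p) • (z : M) = (C c : KK p) • (C d : KK p) • (z : M)
    rw [C_mul, mul_smul])
  smul_zero c := Subtype.ext (smul_zero (C c : KK p))
  smul_add c z w := Subtype.ext (smul_add (C c : KK p) (z : M) w)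
  add_smul c d z := Subtype.ext (by
    change (C (c + d) : KK p) • (z : M) = (C c : KK p) • (z : M) + (C d : KK p) • (z : M)
    rw [C_add, add_smul])
  zero_smul z := Subtype.ext (by
    change (C 0 : KK p) • (z : M) = 0
    rw [C_0, zero_smul])

theorem mon_mem {k : ℤ} (μ : Mon p n k) :
    (monomial (Finsupp.mapDomain (fun i : Fin n => (i : ℕ)) μ.1) (1 : ℤ_[p]) : KK p) • y ∈
      Mg k := by
  have h1 : HK p k (monomial (Finsupp.mapDomain (fun i : Fin n => (i : ℕ)) μ.1) (1 : ℤ_[p])) := by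
    refine isWeightedHomogeneous_monomial _ _ _ ?_
    rw [weight_mapDomain]
    exact μ.2
  have h := H.smul_mem (k := 0) h1 H.y_mem
  rwa [zero_add] at h


/-- the monomials of degree `k` times `y` -/
noncomputable def bas {k : ℤ} (μ : Mon p n k) : Mg k :=
  ⟨(monomial (Finsupp.mapDomain (fun i : Fin n => (i : ℕ)) μ.1) (1 : ℤ_[p]) : KK p) • y,
    H.mon_mem μ⟩

theorem sum_bas {k : ℤ} (c : Mon p n k → ℤ_[p]) :
    letI := H.zmod k
    ((∑ i, c i • H.bas i : Mg k) : M) = RN p n (pol c) • y := by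
  letI := H.zmod k
  rw [AddSubgroup.val_finsetSum, pol, map_sum, Finset.sum_smul]
  refine Finset.sum_congr rfl fun i _ => ?_
  change (C (c i) : KK p) • (monomial (Finsupp.mapDomain (fun i : Fin n => (i : ℕ)) i.1)
    (1 : ℤ_[p]) : KK p) • y = _
  rw [smul_smul, C_mul_monomial, mul_one]
  congr 1
  exact (rename_monomial _ _ _).symm

theorem sum_bas_int {k : ℤ} (a : Mon p n k → ℤ) :
    ((∑ i, a i • H.bas i : Mg k) : M) = RN p n (pol fun i => (a i : ℤ_[p])) • y := by
  letI := H.zmod k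
  rw [← H.sum_bas]
  congr 1
  refine Finset.sum_congr rfl fun i _ => ?_
  exact (Int.cast_smul_eq_zsmul ℤ_[p] (a i) (H.bas i)).symm

theorem exists_pol {k : ℤ} {f : KK p} (hf : HK p k f) :
    ∃ a : Mon p n k → ℤ,
      red p (f - RN p n (pol fun i => (a i : ℤ_[p]))) ∈ Ideal.span (ξ '' {j : ℕ | n ≤ j}) := by
  rcases eq_zero_or p hf with rfl | ⟨m, rfl⟩
  · refine ⟨0, ?_⟩
    have h : (pol fun i : Mon p n k => (((0 : Mon p n k → ℤ) i : ℤ) : ℤ_[p])) = 0 := by
      rw [pol]
      refine Finset.sum_eq_zero fun i _ => ?_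
      rw [Pi.zero_apply, Int.cast_zero, map_zero]
    rw [h, map_zero, sub_zero, map_zero]
    exact Ideal.zero_mem _
  · obtain ⟨g, hg, hg'⟩ := exists_mod p H.hom H.ne (red_isWH p hf)
    choose a ha using fun c : ZMod p => ZMod.intCast_surjective c
    refine ⟨fun i => a (coeff i.1 g), ?_⟩
    have h : MvPolynomial.map PadicInt.toZMod
        (pol fun i : Mon p n (2 * (m : ℤ)) => ((a (coeff i.1 g) : ℤ) : ℤ_[p])) = g := by
      ext μ
      rw [coeff_map]
      by_cases h : Finsupp.weight (fun i : Fin n => sV p ((i : ℕ) + 1)) μ = 2 * (m : ℤ)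
      · have h1 := coeff_pol (fun i : Mon p n (2 * (m : ℤ)) =>
          ((a (coeff i.1 g) : ℤ) : ℤ_[p])) ⟨μ, h⟩
        rw [h1, map_intCast, ha]
      · have h1 : coeff μ (pol fun i : Mon p n (2 * (m : ℤ)) =>
            ((a (coeff i.1 g) : ℤ) : ℤ_[p])) = 0 := by
          by_contra hne
          exact h ((HK_RN_iff p).1 (pol_hom _) hne)
        rw [h1, map_zero]
        by_contra hne
        refine h ?_
        have h2 := hg (fun h0 => hne h0.symm)
        rw [weight_sV p (fun i : Fin n => (i : ℕ)), h2]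
    rw [map_sub, red_RN, h]
    exact hg'

/-- **`Mg` is free over `ℤ_p[v_1, …, v_n]` on `y`** -/
theorem existsUnique (k : ℤ) (z : M) (hz : z ∈ Mg k) :
    ∃! f : MvPolynomial (Fin n) ℤ_[p], HK p k (RN p n f) ∧ z = RN p n f • y := by
  letI := H.zmod k
  have h1 : ∀ z : Mg k, ∃ (a : Mon p n k → ℤ) (z' : Mg k), z = ∑ i, a i • H.bas i + p • z' := by
    intro z
    obtain ⟨f, hf, z', hz', e⟩ := H.surj k z z.2
    obtain ⟨a, ha⟩ := H.exists_pol hf
    have h2 : HK p k (f - RN p n (pol fun i => (a i : ℤ_[p]))) :=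
      (weightedHomogeneousSubmodule ℤ_[p] _ k).sub_mem hf (pol_hom _)
    obtain ⟨z'', hz'', e''⟩ := (H.ker k _ h2).2 ha
    refine ⟨a, ⟨z' + z'', (Mg k).add_mem hz' hz''⟩, Subtype.ext ?_⟩
    rw [AddSubgroup.coe_add, H.sum_bas_int, AddSubgroup.coe_nsmul, smul_add, e, ← p_smul z',
      ← p_smul z'', ← e'', sub_smul]
    abel
  have h2 : ∀ (a : Mon p n k → ℤ) (z' : Mg k), ∑ i, a i • H.bas i = p • z' →
      ∀ i, (p : ℤ) ∣ a i := by
    intro a z' h i
    have h3 := congrArg (fun x : Mg k => (x : M)) h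
    beta_reduce at h3
    rw [H.sum_bas_int, AddSubgroup.coe_nsmul, ← p_smul (z' : M)] at h3
    have h4 := (H.ker k _ (pol_hom _)).1 ⟨z', z'.2, h3⟩
    rw [red_RN] at h4
    have h5 := eq_zero_of_incl_mem p H.hom H.ne h4
    have h6 := congrArg (coeff i.1) h5
    rw [coeff_map, coeff_pol, coeff_zero, map_intCast] at h6
    exact (ZMod.intCast_zmod_eq_zero_iff_dvd _ _).1 h6
  obtain ⟨c, hc, hu⟩ := existsUnique_sum_of_mod (H.uniq k) (fun x hx => Subtype.ext
    (H.tf k x x.2 (by
      rw [p_smul]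
      exact congrArg (fun x : Mg k => (x : M)) hx))) H.bas h1 h2 ⟨z, hz⟩
  refine ⟨pol c, ⟨pol_hom c, ?_⟩, ?_⟩
  · rw [← H.sum_bas]
    exact congrArg (fun x : Mg k => (x : M)) hc
  · rintro f ⟨hf, hf'⟩
    rw [eq_pol hf]
    congr 1
    refine hu (fun i : Mon p n k => coeff i.1 f) (Subtype.ext ?_)
    rw [H.sum_bas, ← eq_pol hf]
    exact hf'


omit H in
/-- monomials of the weight of `v_{j+1}` of degree at most one -/
theorem eq_single {j : ℕ} {μ : ℕ →₀ ℕ}
    (h : Finsupp.weight (fun i => sV p (i + 1)) μ = sV p (j + 1)) (hd : μ.degree < 2) :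
    μ = Finsupp.single j 1 := by
  classical
  rcases Nat.lt_or_ge 0 μ.degree with h1 | h1
  · have h2 : μ.degree = 1 := by omega
    obtain ⟨i, hi⟩ : ∃ i, μ i ≠ 0 := by
      by_contra hall
      push Not at hall
      have h3 : μ = 0 := Finsupp.ext hall
      rw [h3, map_zero] at h1
      exact lt_irrefl _ h1
    have h3 : μ = (μ - Finsupp.single i 1) + Finsupp.single i 1 := by
      rw [tsub_add_cancel_of_le]
      rw [Finsupp.single_le_iff]
      omega
    rw [h3, map_add, Finsupp.degree_single] at h2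
    have h4 : μ - Finsupp.single i 1 = 0 := (Finsupp.degree_eq_zero_iff _).1 (by omega)
    rw [h4, zero_add] at h3
    rw [h3, Finsupp.weight_single, one_smul] at h
    rw [h3]
    congr 1
    rcases lt_trichotomy i j with h5 | h5 | h5
    · have h6 := sV_lt p (show i + 1 < j + 1 by omega)
      omega
    · exact h5
    · have h6 := sV_lt p (show j + 1 < i + 1 by omega)
      omega
  · have h2 : μ = 0 := (Finsupp.degree_eq_zero_iff _).1 (by omega)
    rw [h2, map_zero] at h
    have := sV_pos p j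
    omega

omit H in
theorem exists_lift {m : ℕ} {f : MvPolynomial ℕ (ZMod p)}
    (hf : f.IsWeightedHomogeneous (wN p) m) : ∃ g : KK p, HK p (2 * (m : ℤ)) g ∧ red p g = f := by
  classical
  choose a ha using fun c : ZMod p => ZMod.intCast_surjective c
  refine ⟨∑ μ ∈ f.support, monomial μ ((a (coeff μ f) : ℤ) : ℤ_[p]), ?_, ?_⟩
  · refine (weightedHomogeneousSubmodule ℤ_[p] _ _).sum_mem fun μ hμ => ?_
    rw [mem_weightedHomogeneousSubmodule]
    refine isWeightedHomogeneous_monomial _ _ _ ?_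
    rw [weight_sV p (fun i => i), hf (mem_support_iff.1 hμ)]
  · rw [map_sum]
    conv_rhs => rw [f.as_sum]
    refine Finset.sum_congr rfl fun μ _ => ?_
    rw [red, map_monomial, map_intCast, ha]

omit H in
theorem isUnit_of_toZMod {u : ℤ_[p]} (h : PadicInt.toZMod u ≠ 0) : IsUnit u := by
  rw [← IsLocalRing.notMem_maximalIdeal, ← PadicInt.ker_toZMod]
  exact h

/-- **the generators `x_l`** -/
theorem exists_x (l : ℕ) : ∃ x : KK p, HK p (dd p n l) x ∧ x • y = 0 ∧
    x - X (n + l) ∈ II p ^ 2 := by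
  classical
  set j := n + l with hj
  have hjn : n ≤ j := by omega
  have hdd : dd p n l = sV p (j + 1) := by
    unfold dd
    rw [hj]
    congr 1
    omega
  obtain ⟨x₀, h₀, hr⟩ := exists_lift (H.hom j hjn)
  rw [← sV_eq] at h₀
  obtain ⟨z, hz, e⟩ := (H.ker _ _ h₀).2 (by
    rw [hr]
    exact Ideal.subset_span ⟨j, hjn, rfl⟩)
  obtain ⟨g, ⟨hg, e'⟩, -⟩ := H.existsUnique _ z hz
  have hp0 : HK p (0 : ℤ) (p : KK p) := by
    have := isWeightedHomogeneous_C (fun i => sV p (i + 1)) (p : ℤ_[p])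
    rwa [map_natCast] at this
  have h₁ : HK p (sV p (j + 1)) (x₀ - (p : KK p) * RN p n g) := by
    refine (weightedHomogeneousSubmodule ℤ_[p] _ _).sub_mem h₀ ?_
    have := hp0.mul hg
    rwa [zero_add] at this
  have hco : coeff (Finsupp.single j 1) (RN p n g) = 0 := by
    refine coeff_rename_eq_zero _ _ _ fun u hu => ?_
    exfalso
    have h1 := DFunLike.congr_fun hu j
    rw [Finsupp.single_eq_same, Finsupp.mapDomain_of_notMem_range] at h1
    · exact zero_ne_one h1
    · rintro ⟨i, hi⟩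
      have h2 := i.2
      have h3 : (i : ℕ) = j := hi
      omega
  have hu : IsUnit (coeff (Finsupp.single j 1) x₀) := by
    apply isUnit_of_toZMod
    have h1 := H.ne j hjn
    rwa [← hr, red, coeff_map] at h1
  obtain ⟨u, hu⟩ := hu
  refine ⟨C ((u⁻¹ : ℤ_[p]ˣ) : ℤ_[p]) * (x₀ - (p : KK p) * RN p n g), ?_, ?_, ?_⟩
  · rw [hdd]
    have := (isWeightedHomogeneous_C (fun i => sV p (i + 1)) ((u⁻¹ : ℤ_[p]ˣ) : ℤ_[p])).mul h₁
    rwa [zero_add] at this
  · rw [mul_smul, sub_smul, mul_smul, ← e', ← e, sub_self, smul_zero]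
  · have h2 : HK p (sV p (j + 1))
        (C ((u⁻¹ : ℤ_[p]ˣ) : ℤ_[p]) * (x₀ - (p : KK p) * RN p n g) - X j) := by
      refine (weightedHomogeneousSubmodule ℤ_[p] _ _).sub_mem ?_ (isWeightedHomogeneous_X _ _ _)
      have := (isWeightedHomogeneous_C (fun i => sV p (i + 1)) ((u⁻¹ : ℤ_[p]ˣ) : ℤ_[p])).mul h₁
      rwa [zero_add] at this
    rw [mem_II_pow_iff]
    intro E
    by_cases hE : 2 ≤ E.degree
    · rw [Nat.sub_eq_zero_of_le hE, pow_zero]
      exact one_dvd _
    · have h3 : coeff E (C ((u⁻¹ : ℤ_[p]ˣ) : ℤ_[p]) * (x₀ - (p : KK p) * RN p n g) - X j) = 0 := by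
        by_contra hne
        have h4 := eq_single (h2 hne) (by omega)
        apply hne
        rw [h4, coeff_sub, coeff_C_mul, coeff_sub, ← hu, coeff_X, if_pos rfl]
        have h5 : coeff (Finsupp.single j 1) ((p : KK p) * RN p n g) = 0 := by
          have h6 : (p : KK p) = C (p : ℤ_[p]) := (map_natCast _ _).symm
          rw [h6, coeff_C_mul, hco, mul_zero]
        rw [h5, sub_zero, Units.inv_mul, sub_self]
      rw [h3]
      exact dvd_zero _

/-- the generators, chosen -/
theorem exists_xs : ∃ x : ℕ → KK p, (∀ l, HK p (dd p n l) (x l)) ∧ (∀ l, x l • y = 0) ∧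
    ∀ l, x l - X (n + l) ∈ II p ^ 2 := by
  choose x h using fun l => H.exists_x l
  exact ⟨x, fun l => (h l).1, fun l => (h l).2.1, fun l => (h l).2.2⟩

end BF

end bf

end Vale.Agent.P221.T.H924
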