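import Vale.Agent.P221.T.H924.StdS
import Vale.Agent.P221.T.H924.FormAlg
import Vale.Agent.P221.T.H769.DCb
import Vale.Agent.P221.T.Form
import Vale.Agent.P221.H924.Gr

/-!
# P221 (helper924), part T: forms of `BP⟨n⟩` of the statement layer give `FormD`
-/

open CategoryTheory MonoidalCategory MonObj Limits Pretriangulated
open MvPolynomial (C X coeff monomial rename)

set_option linter.unusedSectionVars false

noncomputable section

namespace Vale.Agent.P221.T.H924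

open Vale.Agent.P251 Vale.Agent.P251.S Vale.Agent.P251.T Vale.Agent.P251.M Vale.Agent.P251.F
  Vale.Agent.P251.I EvenSpheres Vale.Agent.P257.H702 Vale.Agent.P257.H80 Vale.Agent.P251.Q
  Vale.Agent.P251.St Vale.Agent.P257.St Vale.Agent.P221.H746 Vale.Agent.P221.H924
  Vale.Agent.P221.T Vale.Agent.P093.N0

section lem

universe u

variable {𝒯 : Type u} [Category.{0} 𝒯] [Preadditive 𝒯] [HasZeroObject 𝒯]
    [HasShift 𝒯 ℤ] [∀ n : ℤ, (shiftFunctor 𝒯 n).Additive] [Pretriangulated 𝒯] [IsTriangulated 𝒯]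
    [MonoidalCategory 𝒯] [SymmetricCategory 𝒯] [TensorTriangulated 𝒯] [MonoidalClosed 𝒯]
    [HasCoproducts.{0} 𝒯] [HasProducts.{0} 𝒯] [StableCat 𝒯]

theorem mul_eqToHom {R Y : 𝒯} [MonObj R] (M : ModStr R Y) {m m' k k' : ℤ} (e : m = m')
    (h : k + m = k') (h' : k + m' = k') (a : (𝟙_ 𝒯)⟦m'⟧ ⟶ R) (y : (𝟙_ 𝒯)⟦k⟧ ⟶ Y) :
    mul M h (eqToHom (by rw [e]) ≫ a) y = mul M h' a y := by
  subst e
  rw [eqToHom_refl, Category.id_comp]

theorem of_zero' {Y : 𝒯} {z : ℤ} (hz : z = 0) (g : 𝟙_ 𝒯 ⟶ Y) :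
    PiM.of Y z ((shiftFunctorZero' 𝒯 z hz).hom.app (𝟙_ 𝒯) ≫ g) = PiM.of Y 0 (zr 𝒯 ≫ g) := by
  subst hz
  congr 2
  simp [shiftFunctorZero', zr]

theorem of_stdSph_zero {Y : 𝒯} (g : 𝟙_ 𝒯 ⟶ Y) :
    PiM.of Y (2 * 0) ((stdSph (0 : ℤ)).inv ≫ (stdEven 𝒯).zero.inv ≫ g) =
      PiM.of Y 0 (zr 𝒯 ≫ g) := by
  rw [← of_zero' (show 2 * (0 : ℤ) = 0 by norm_num)]
  congr 1
  refine Eq.trans (show _ = (((shiftFunctorZero' 𝒯 (2 * (0 : ℤ))
      (by norm_num)).hom.app (𝟙_ 𝒯) ≫ (ρ_ (𝟙_ 𝒯)).inv) ≫ (λ_ (𝟙_ 𝒯)).hom) ≫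
        𝟙 (𝟙_ 𝒯) ≫ g from rfl) ?_
  rw [Category.id_comp, unitors_equal, Category.assoc, Category.assoc]
  congr 1
  exact Iso.inv_hom_id_assoc _ _

end lem

section form

variable {T : SHCat} {S : Susp T} {p : ℕ} [hp : Fact p.Prime] {n : ℕ} {P : RingSp T}
  {φ : P257.St.GHom S p P} {D : MUData T.C} {b₀ : D.R ⟶ P.obj} [IsMonHom b₀]
  {κ : HRing (stdEven T.C) P.obj →+* MvPolynomial ℕ (ZMod p)} {Pc W : T.C}
  (b : BPS p P.obj Pc W)

/-- the classes `b.v i` are the Hazewinkel generators modulo `p` -/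
def VHyp (κ : HRing (stdEven T.C) P.obj →+* MvPolynomial ℕ (ZMod p)) (b : BPS p P.obj Pc W) :
    Prop :=
  ∀ i : ℕ, ∃ (w : ℤ) (hw : sV p (i + 1) = 2 * w) (u : (stdEven T.C).S w ⟶ P.obj),
    b.v i = eqToHom (by rw [hw]) ≫ (stdSph w).inv ≫ u ∧
      κ (HRing.of (stdEven T.C) P.obj w u) = X i

variable (hv : VHyp κ b) {B : T.C} (L : ModStr P.obj B) (hB : H395.PComplete p B) {q : P.obj ⟶ B}
  (hq : μ[P.obj] ≫ q = (P.obj ◁ q) ≫ L.act)

/-- the generator -/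
abbrev gn (q : P.obj ⟶ B) : PiM B := PiM.of B 0 (zr T.C ≫ η[P.obj] ≫ q)

include hv hq in
/-- monomials -/
theorem exists_mon (N : ℕ) : ∀ d : ℕ →₀ ℕ, d.degree = N → ∀ w : ℤ,
    w = ((Finsupp.weight (wN p) d : ℕ) : ℤ) →
    ∃ u : (stdEven T.C).S w ⟶ P.obj, κ (HRing.of (stdEven T.C) P.obj w u) = monomial d 1 ∧
      b.kk L hB (monomial d 1) (gn q) = PiM.of B (2 * w) ((stdSph w).inv ≫ u ≫ q) := by
  classical
  induction N with
  | zero =>
    intro d hd w hw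
    have h0 : d = 0 := (Finsupp.degree_eq_zero_iff _).1 hd
    subst h0
    rw [map_zero, Nat.cast_zero] at hw
    subst hw
    refine ⟨(stdEven T.C).zero.inv ≫ η[P.obj], ?_, ?_⟩
    · have h1 : HRing.of (stdEven T.C) P.obj 0 ((stdEven T.C).zero.inv ≫ η[P.obj]) = 1 := rfl
      rw [h1, map_one]
      rfl
    · have h1 : (monomial 0 1 : KK p) = 1 := rfl
      rw [h1, map_one, Category.assoc, of_stdSph_zero]
      rfl
  | succ N ih =>
    intro d hd w hw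
    obtain ⟨i, hi⟩ : ∃ i, d i ≠ 0 := by
      by_contra hall
      push Not at hall
      have h3 : d = 0 := Finsupp.ext hall
      rw [h3, map_zero] at hd
      omega
    have h3 : d = (d - Finsupp.single i 1) + Finsupp.single i 1 := by
      rw [tsub_add_cancel_of_le]
      rw [Finsupp.single_le_iff]
      omega
    set d' := d - Finsupp.single i 1 with hd'
    have h4 : d'.degree = N := by
      rw [h3, map_add, Finsupp.degree_single] at hd
      omega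
    obtain ⟨u, hu, hku⟩ := ih d' h4 _ rfl
    obtain ⟨wi, hwi, ui, hvi, hui⟩ := hv i
    have hwi' : wi = ((wN p i : ℕ) : ℤ) := by
      have := sV_eq p i
      omega
    have hw' : wi + ((Finsupp.weight (wN p) d' : ℕ) : ℤ) = w := by
      rw [hw, h3, map_add, Finsupp.weight_single, one_smul, hwi']
      push_cast
      ring
    refine ⟨gmul hw' ui u, ?_, ?_⟩
    · rw [← of_mul_of hw', map_mul, hui, hu, h3, X, MvPolynomial.monomial_mul, _root_.one_mul,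
        add_comm]
    · have h5 : (monomial d 1 : KK p) = X i * monomial d' 1 := by
        rw [X, MvPolynomial.monomial_mul, _root_.one_mul, add_comm, ← h3]
      have hk : 2 * ((Finsupp.weight (wN p) d' : ℕ) : ℤ) + 2 * wi = 2 * w := by omega
      have hk' : 2 * ((Finsupp.weight (wN p) d' : ℕ) : ℤ) + sV p (i + 1) = 2 * w := by omega
      have h6 : (b.kk L hB (X i) * b.kk L hB (monomial d' 1)) (gn q) =
          b.kk L hB (X i) (b.kk L hB (monomial d' 1) (gn q)) := rfl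
      rw [h5, map_mul, h6, hku, b.kk_v L hB i hk', hvi,
        mul_eqToHom L hwi hk' hk, mul_eq_gsmul L (by omega) (by omega) hw', gmul_comp_q L hq]
      rfl

theorem exists_add_p (c : ℤ_[p]) : ∃ (a : ℤ) (c' : ℤ_[p]), c = (a : ℤ_[p]) + (p : ℤ_[p]) * c' ∧
    PadicInt.toZMod c = (a : ZMod p) := by
  obtain ⟨a, ha⟩ := ZMod.intCast_surjective (PadicInt.toZMod c)
  obtain ⟨c', hc'⟩ := dvd_of_toZMod p (a := c - (a : ℤ_[p])) (by
    rw [map_sub, map_intCast, ha, sub_self])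
  exact ⟨a, c', by rw [← hc']; ring, ha.symm⟩

theorem of_zsmul_comp {w : ℤ} (a : ℤ) (u : (stdEven T.C).S w ⟶ P.obj) :
    a • PiM.of B (2 * w) ((stdSph w).inv ≫ u ≫ q) =
      PiM.of B (2 * w) ((stdSph w).inv ≫ (a • u) ≫ q) := by
  rw [← map_zsmul, Preadditive.zsmul_comp, Preadditive.comp_zsmul]

include hv hq in
theorem exists_cls_monomial (d : ℕ →₀ ℕ) (c : ℤ_[p]) {w : ℤ}
    (hw : w = ((Finsupp.weight (wN p) d : ℕ) : ℤ)) :
    ∃ u : (stdEven T.C).S w ⟶ P.obj,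
      κ (HRing.of (stdEven T.C) P.obj w u) = red p (monomial d c) ∧
      ∃ z' : (𝟙_ T.C)⟦2 * w⟧ ⟶ B, b.kk L hB (monomial d c) (gn q) =
        PiM.of B (2 * w) ((stdSph w).inv ≫ u ≫ q) + p • PiM.of B (2 * w) z' := by
  obtain ⟨u, hu, hk⟩ := exists_mon b hv L hB hq d.degree d rfl w hw
  obtain ⟨a, c', hc, ha⟩ := exists_add_p c
  obtain ⟨z', hz'⟩ := b.kk_C L hB c' ((stdSph w).inv ≫ u ≫ q)
  refine ⟨a • u, ?_, z', ?_⟩
  · have h1 : HRing.of (stdEven T.C) P.obj w (a • u) = a • HRing.of (stdEven T.C) P.obj w u :=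
      map_zsmul (DirectSum.of ((stdEven T.C).Gr P.obj) w) _ _
    rw [h1, map_zsmul, hu, red, MvPolynomial.map_monomial, ha, MvPolynomial.smul_monomial,
      zsmul_eq_mul, _root_.mul_one]
  · have h1 : (monomial d c : KK p) = C c * monomial d 1 := by
      rw [MvPolynomial.C_mul_monomial, _root_.mul_one]
    have h2 : (b.kk L hB (C c) * b.kk L hB (monomial d 1)) (gn q) =
        b.kk L hB (C c) (b.kk L hB (monomial d 1) (gn q)) := rfl
    have h3 : (C c : KK p) = (a : KK p) + (p : KK p) * C c' := by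
      rw [hc, map_add, map_mul, map_intCast, map_natCast]
    have h4 : ∀ x : PiM B, b.kk L hB (C c) x = a • x + p • b.kk L hB (C c') x := by
      intro x
      rw [h3, map_add, map_mul, map_intCast, map_natCast]
      rfl
    rw [h1, map_mul, h2, hk, h4, hz', of_zsmul_comp]

include hv hq in
theorem exists_cls_sum {w : ℤ} (c : (ℕ →₀ ℕ) → ℤ_[p]) (s : Finset (ℕ →₀ ℕ)) :
    (∀ d ∈ s, w = ((Finsupp.weight (wN p) d : ℕ) : ℤ)) →
    ∃ u : (stdEven T.C).S w ⟶ P.obj,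
      κ (HRing.of (stdEven T.C) P.obj w u) = red p (∑ d ∈ s, monomial d (c d)) ∧
      ∃ z' : (𝟙_ T.C)⟦2 * w⟧ ⟶ B, b.kk L hB (∑ d ∈ s, monomial d (c d)) (gn q) =
        PiM.of B (2 * w) ((stdSph w).inv ≫ u ≫ q) + p • PiM.of B (2 * w) z' := by
  classical
  induction s using Finset.induction_on with
  | empty =>
    intro _
    refine ⟨0, ?_, 0, ?_⟩
    · have h1 : HRing.of (stdEven T.C) P.obj w 0 = 0 :=
        map_zero (DirectSum.of ((stdEven T.C).Gr P.obj) w)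
      rw [h1, Finset.sum_empty, map_zero, map_zero]
    · have h1 : b.kk L hB 0 (gn q) = 0 := by
        rw [map_zero]
        rfl
      rw [Finset.sum_empty, h1, zero_comp, comp_zero, map_zero, smul_zero, add_zero]
  | insert d s hd ih =>
    intro hs
    obtain ⟨u, hu, z', hz'⟩ := ih fun e he => hs e (Finset.mem_insert_of_mem he)
    obtain ⟨v, hv', y', hy'⟩ := exists_cls_monomial b hv L hB hq d (c d)
      (hs d (Finset.mem_insert_self d s))
    refine ⟨v + u, ?_, y' + z', ?_⟩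
    · have h1 : HRing.of (stdEven T.C) P.obj w (v + u) = HRing.of (stdEven T.C) P.obj w v +
          HRing.of (stdEven T.C) P.obj w u :=
        map_add (DirectSum.of ((stdEven T.C).Gr P.obj) w) _ _
      rw [h1, map_add, hu, hv', Finset.sum_insert hd, map_add]
    · have h1 : b.kk L hB (monomial d (c d) + ∑ d ∈ s, monomial d (c d)) (gn q) =
          b.kk L hB (monomial d (c d)) (gn q) + b.kk L hB (∑ d ∈ s, monomial d (c d)) (gn q) := by
        rw [map_add]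
        rfl
      rw [Finset.sum_insert hd, h1, hy', hz', Preadditive.add_comp, Preadditive.comp_add,
        map_add, map_add, smul_add]
      abel

include hv hq in
/-- **(KL)** the action of `ℤ_p[v_1, v_2, …]` on the generator, modulo `p` -/
theorem exists_cls {w : ℕ} {f : KK p} (hf : HK p (2 * (w : ℤ)) f) :
    ∃ u : (stdEven T.C).S w ⟶ P.obj,
      κ (HRing.of (stdEven T.C) P.obj w u) = red p f ∧
      ∃ z' : (𝟙_ T.C)⟦2 * (w : ℤ)⟧ ⟶ B, b.kk L hB f (gn q) =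
        PiM.of B (2 * w) ((stdSph w).inv ≫ u ≫ q) + p • PiM.of B (2 * w) z' := by
  have h := exists_cls_sum (w := (w : ℤ)) b hv L hB hq (fun d => coeff d f) f.support (by
    intro d hd
    have h1 := @hf d (MvPolynomial.mem_support_iff.1 hd)
    rw [weight_sV p (fun i => i)] at h1
    change 2 * ((Finsupp.weight (wN p) d : ℕ) : ℤ) = _ at h1
    omega)
  rwa [MvPolynomial.support_sum_monomial_coeff] at h

variable {x : ∀ j : ℕ, SHCat.Hom (S.obj (Cn (p ^ j - 1))) P.obj}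
  {M : T.C} {i : 𝟙_ T.C ⟶ M} {δ : M ⟶ (𝟙_ T.C)⟦(1 : ℤ)⟧}

/-- the classes modulo `p` of the generators -/
abbrev xi (κ : HRing (stdEven T.C) P.obj →+* MvPolynomial ℕ (ZMod p))
    (x : ∀ j : ℕ, SHCat.Hom (S.obj (Cn (p ^ j - 1))) P.obj) (j : ℕ) : MvPolynomial ℕ (ZMod p) :=
  κ (xc (xE x) j)

/-- the even homotopy of `B` has no `p`-torsion -/
theorem tf_even (hM : Triangle.mk ((p : ℤ) • 𝟙 (𝟙_ T.C)) i δ ∈ distTriang T.C)
    (hodd : ∀ (k : ℤ) (f : (𝟙_ T.C)⟦2 * k + 1⟧ ⟶ B ⊗ M), f = 0) (w : ℤ)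
    (z : (𝟙_ T.C)⟦2 * w⟧ ⟶ B) (hz : (p : ℤ) • z = 0) : z = 0 := by
  obtain ⟨m, hD⟩ := ModP.exists_dist hM B
  have h1 : (z ≫ (ρ_ B).inv)⟦(1 : ℤ)⟧' ≫ ((p : ℤ) • 𝟙 (B ⊗ 𝟙_ T.C))⟦(1 : ℤ)⟧' = 0 := by
    rw [← Functor.map_comp, Category.assoc, Preadditive.comp_zsmul, Category.comp_id,
      Preadditive.comp_zsmul, ← Preadditive.zsmul_comp, hz, zero_comp, Functor.map_zero]
  obtain ⟨g, hg⟩ := Triangle.coyoneda_exact₁ _ hD _ h1
  have h2 : g = 0 := by
    let e : (𝟙_ T.C)⟦2 * w + 1⟧ ≅ (𝟙_ T.C)⟦2 * w⟧⟦(1 : ℤ)⟧ :=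
      (shiftFunctorAdd' T.C (2 * w) 1 (2 * w + 1) rfl).app _
    rw [← cancel_epi e.hom, comp_zero]
    exact hodd w (e.hom ≫ g)
  rw [h2, zero_comp] at hg
  have h3 : z ≫ (ρ_ B).inv = 0 := (shiftFunctor T.C (1 : ℤ)).map_injective
    (hg.trans (Functor.map_zero _ _ _).symm)
  rw [← cancel_mono (ρ_ B).inv, h3, zero_comp]

/-- the homotopy of `B` has no `p`-torsion -/
theorem tf_all (hM : Triangle.mk ((p : ℤ) • 𝟙 (𝟙_ T.C)) i δ ∈ distTriang T.C)
    (hB : H395.PComplete p B)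
    (hodd : ∀ (k : ℤ) (f : (𝟙_ T.C)⟦2 * k + 1⟧ ⟶ B ⊗ M), f = 0) (k : ℤ)
    (z : (𝟙_ T.C)⟦k⟧ ⟶ B) (hz : (p : ℤ) • z = 0) : z = 0 := by
  rcases Int.even_or_odd' k with ⟨w, rfl | rfl⟩
  · exact tf_even hM hodd w z hz
  · exact odd_of_complete hM hB hodd w z

include hv hq in
/-- lifting of the classes modulo the ideal -/
theorem exists_cls_mod (hκ : BPOut D φ b₀ κ)
    (hx1 : ∀ j, n ≤ j → (xi κ x j).IsWeightedHomogeneous (wN p) (wN p j))
    (hx2 : ∀ j, n ≤ j → MvPolynomial.coeff (Finsupp.single j 1) (xi κ x j) ≠ 0) (w : ℤ)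
    (u : (stdEven T.C).S w ⟶ P.obj) :
    ∃ f : KK p, HK p (2 * w) f ∧ ∃ (v : (stdEven T.C).S w ⟶ P.obj)
      (z' : (𝟙_ T.C)⟦2 * w⟧ ⟶ B), b.kk L hB f (gn q) =
        PiM.of B (2 * w) ((stdSph w).inv ≫ v ≫ q) + p • PiM.of B (2 * w) z' ∧
      κ (HRing.of (stdEven T.C) P.obj w (u - v)) ∈ Ideal.span (xi κ x '' {j | n ≤ j}) := by
  have hd := hκ.deg n _ hx1 hx2 w u
  have hsub : ∀ v : (stdEven T.C).S w ⟶ P.obj, κ (HRing.of (stdEven T.C) P.obj w (u - v)) =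
      κ (HRing.of (stdEven T.C) P.obj w u) - κ (HRing.of (stdEven T.C) P.obj w v) := by
    intro v
    have h1 : HRing.of (stdEven T.C) P.obj w (u - v) = HRing.of (stdEven T.C) P.obj w u -
        HRing.of (stdEven T.C) P.obj w v :=
      map_sub (DirectSum.of ((stdEven T.C).Gr P.obj) w) _ _
    rw [h1, map_sub]
  rcases lt_or_ge w 0 with hw | hw
  · refine ⟨0, MvPolynomial.isWeightedHomogeneous_zero _ _ _, 0, 0, ?_, ?_⟩
    · have h1 : b.kk L hB 0 (gn q) = 0 := by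
        rw [map_zero]
        rfl
      rw [h1, zero_comp, comp_zero, map_zero, smul_zero, add_zero]
    · rw [sub_zero]
      exact (qpi_eq_zero_iff p hx1 hx2 _).1 (isWH_neg p hw hd)
  · obtain ⟨m, rfl⟩ := Int.eq_ofNat_of_zero_le hw
    set g := qpi p hx1 hx2 (κ (HRing.of (stdEven T.C) P.obj (m : ℤ) u)) with hg
    have hd' := (isWH_int p).2 hd
    have h1 : (MvPolynomial.aeval (fun a : Fin n => vk p a) g).IsWeightedHomogeneous (wN p) m :=
      aeval_isWH (w := fun a : Fin n => wN p a) (w' := wN p) (fun a : Fin n => vk_isWH p a) hd'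
    obtain ⟨f, hf, hfr⟩ := BF.exists_lift h1
    obtain ⟨v, hv', z', hz'⟩ := exists_cls b hv L hB hq hf
    refine ⟨f, hf, v, z', hz', ?_⟩
    rw [← qpi_eq_zero_iff p hx1 hx2, hsub, map_sub, hv', hfr, ← hg, sub_eq_zero]
    have h2 : ((qpi p hx1 hx2).comp (MvPolynomial.aeval (fun a : Fin n => vk p a))) =
        AlgHom.id (ZMod p) _ := by
      apply MvPolynomial.algHom_ext
      intro a
      rw [AlgHom.comp_apply, MvPolynomial.aeval_X, qpi_vk]
      rfl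
    exact (DFunLike.congr_fun h2 g).symm

include hv hq in
/-- the homotopy of `B` as input of `FormAlg` -/
theorem bf (hκ : BPOut D φ b₀ κ) (hx : ∀ j, n < j → P221.St.IsPolyGen φ j (x j))
    (hM : Triangle.mk ((p : ℤ) • 𝟙 (𝟙_ T.C)) i δ ∈ distTriang T.C)
    (hQ : QOut n x κ (L.tensorRight M) (q ≫ rdM i B)) :
    letI := b.mdl L hB
    BF p n (PiM.gr B) (gn q) (xi κ x) := by
  letI := b.mdl L hB
  have hx1 : ∀ j, n ≤ j → (xi κ x j).IsWeightedHomogeneous (wN p) (wN p j) := fun j hj =>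
    (hκ.gen x j (hx _ (Nat.lt_succ_iff.2 hj))).1
  have hx2 : ∀ j, n ≤ j → MvPolynomial.coeff (Finsupp.single j 1) (xi κ x j) ≠ 0 :=
    fun j hj => (hκ.gen x j (hx _ (Nat.lt_succ_iff.2 hj))).2
  have hps : ∀ z : PiM B, (p : KK p) • z = p • z := fun z => p_smul z
  have hred : ∀ {w : ℤ} (a : (𝟙_ T.C)⟦2 * w⟧ ⟶ B), a ≫ rdM i B = 0 →
      ∃ c : (𝟙_ T.C)⟦2 * w⟧ ⟶ B, a = p • c := by
    intro w a ha
    obtain ⟨c, hc⟩ := ModP.exists_zsmul_of_comp_eq_zero hM a ha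
    exact ⟨c, by rw [hc, natCast_zsmul]⟩
  have hred' : ∀ {w : ℤ} (c : (𝟙_ T.C)⟦2 * w⟧ ⟶ B), (p • c) ≫ rdM i B = 0 := by
    intro w c
    have h1 : ((p : ℤ) • c) ≫ rdM i B = 0 := ModP.zsmul_comp_eq_zero hM c
    rwa [natCast_zsmul] at h1
  have hker : ∀ {w : ℤ} (u : (stdEven T.C).S w ⟶ P.obj),
      κ (HRing.of (stdEven T.C) P.obj w u) ∈ Ideal.span (xi κ x '' {j | n ≤ j}) ↔
        ((stdSph w).inv ≫ u ≫ q) ≫ rdM i B = 0 := by
    intro w u
    rw [← hQ.ker w u, Category.assoc, Category.assoc]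
    constructor
    · intro h
      rw [h, comp_zero]
    · intro h
      rwa [← cancel_epi (stdSph w).inv, comp_zero]
  exact {
    smul_mem := fun hf hz => b.kk_mem L hB hf hz
    tf := by
      rintro k _ ⟨z, rfl⟩ hz
      rw [hps, ← map_nsmul] at hz
      have h1 := PiM.of_injective B k (hz.trans (map_zero _).symm)
      rw [tf_all hM hB hQ.odd k z (by rw [natCast_zsmul]; exact h1), map_zero]
    uniq := fun k => H769.uniq_of_dc (BPS.dc_gr hB k)
    y_mem := ⟨_, rfl⟩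
    surj := by
      rintro k _ ⟨z, rfl⟩
      rcases Int.even_or_odd' k with ⟨w, rfl | rfl⟩
      · obtain ⟨u, hu⟩ := hQ.surj w ((stdSph w).hom ≫ z ≫ rdM i B)
        obtain ⟨f, hf, v, z', hz', hv'⟩ := exists_cls_mod b hv L hB hq hκ hx1 hx2 w u
        have h1 := (hker (u - v)).1 hv'
        have h2 : (z - (stdSph w).inv ≫ v ≫ q) ≫ rdM i B = 0 := by
          rw [Preadditive.sub_comp, ← h1, Preadditive.sub_comp, Preadditive.comp_sub,
            Preadditive.sub_comp]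
          congr 1
          rw [Category.assoc, Category.assoc, hu, Iso.inv_hom_id_assoc]
        obtain ⟨c, hc⟩ := hred _ h2
        refine ⟨f, hf, PiM.of B (2 * w) (c - z'), ⟨_, rfl⟩, ?_⟩
        have h3 : f • gn q = b.kk L hB f (gn q) := rfl
        have h4 : z = (stdSph w).inv ≫ v ≫ q + p • c := by
          rw [← hc]
          abel
        rw [h3, hz', hps, h4, map_add, map_nsmul, map_sub, smul_sub]
        abel
      · refine ⟨0, MvPolynomial.isWeightedHomogeneous_zero _ _ _, 0, (PiM.gr B _).zero_mem, ?_⟩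
        rw [odd_of_complete hM hB hQ.odd w z, map_zero, zero_smul, smul_zero, add_zero]
    ker := by
      intro k f hf
      rcases eq_zero_or p hf with rfl | ⟨m, rfl⟩
      · rw [map_zero, zero_smul]
        exact ⟨fun _ => Ideal.zero_mem _, fun _ => ⟨0, (PiM.gr B _).zero_mem, by rw [smul_zero]⟩⟩
      · obtain ⟨u, hu, z', hz'⟩ := exists_cls b hv L hB hq hf
        have h3 : f • gn q = b.kk L hB f (gn q) := rfl
        rw [h3, hz', ← hu, hker]
        constructor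
        · rintro ⟨_, ⟨z'', rfl⟩, h⟩
          have h1 : (stdSph (m : ℤ)).inv ≫ u ≫ q = p • (z'' - z') := by
            apply PiM.of_injective B (2 * (m : ℤ))
            rw [map_nsmul, map_sub, smul_sub, eq_sub_iff_add_eq, h, hps]
          rw [h1]
          exact hred' _
        · intro h
          obtain ⟨c, hc⟩ := hred _ h
          refine ⟨PiM.of B _ (c + z'), ⟨_, rfl⟩, ?_⟩
          rw [hps, hc, map_nsmul, map_add, smul_add]
    hom := hx1
    ne := hx2 }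

include hv hq hB in
/-- **(FORM)** -/
theorem exists_formD (hκ : BPOut D φ b₀ κ) (hx : ∀ j, n < j → P221.St.IsPolyGen φ j (x j))
    (hM : Triangle.mk ((p : ℤ) • 𝟙 (𝟙_ T.C)) i δ ∈ distTriang T.C)
    (hQ : QOut n x κ (L.tensorRight M) (q ≫ rdM i B)) :
    ∃ F : FormD b n B, F.MB = L ∧ F.q = q := by
  letI := b.mdl L hB
  have H := bf b hv L hB hq hκ hx hM hQ
  obtain ⟨y, h1, h2, h3⟩ := H.exists_xs
  exact ⟨⟨L, hB, q, hq, y, h1, h3, h2, fun k z => H.existsUnique k _ ⟨z, rfl⟩⟩, rfl, rfl⟩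

/-- the classes of the Hazewinkel generators -/
theorem vHyp_of_phi (hκ : BPOut D φ b₀ κ) {Φ : MvPolynomial ℕ ℤ →+* HRing (stdEven T.C) P.obj}
    (hΦ : lawOf b₀ = (haz p).map Φ)
    (hv : ∀ i, ∃ (w : ℤ) (hw : sV p (i + 1) = 2 * w) (u : (stdEven T.C).S w ⟶ P.obj),
      b.v i = eqToHom (by rw [hw]) ≫ (stdSph w).inv ≫ u ∧
        HRing.of (stdEven T.C) P.obj w u = Φ (X i)) : VHyp κ b := by
  have h1 : κ.comp Φ = redP p := by
    refine haz_map_injective p (pLoc_poly p) ?_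
    rw [← Law.map_map, ← hΦ, hκ.law]
    rfl
  intro i
  obtain ⟨w, hw, u, e, hu⟩ := hv i
  refine ⟨w, hw, u, e, ?_⟩
  rw [hu]
  have h2 := DFunLike.congr_fun h1 (X i)
  rw [RingHom.comp_apply, redP_X] at h2
  exact h2

/-- **(FORM)** for the forms of the statement layer -/
theorem exists_formD_of_isForm {o : St.Oriented S P} (hD : MUUniv (P251.M.lineIso S.toSpaceFunctor) D)
    (hA : MUAll D) (U : MUFam (P251.M.lineIso S.toSpaceFunctor) D)
    (hM : Triangle.mk ((p : ℤ) • 𝟙 (𝟙_ T.C)) i δ ∈ distTriang T.C)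
    (hP : P257.St.IsBrownPeterson p o φ) (hx : ∀ j, n < j → P221.St.IsPolyGen φ j (x j))
    (hB : P221.St.PComplete p B) {a : SHCat.Hom (SHCat.ten P.obj B) B} (ha : P221.St.IsAct a)
    (hq : P221.St.IsModMap P.mul a q)
    (hmod : ∀ M : T.C, P221.St.IsMoore p M →
        (∀ (k : ℤ) (y : (𝟙_ T.C)⟦k⟧ ⟶ B ⊗ M), ∃ u : (𝟙_ T.C)⟦k⟧ ⟶ P.obj ⊗ M,
          u ≫ (q ▷ M) = y) ∧
        ∀ (k : ℤ) (u : (𝟙_ T.C)⟦k⟧ ⟶ P.obj ⊗ M), u ≫ (q ▷ M) = 0 ↔ P221.St.InGen n x M u)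
    (hv : ∀ (b₀ : D.R ⟶ P.obj) [IsMonHom b₀]
      (κ : HRing (stdEven T.C) P.obj →+* MvPolynomial ℕ (ZMod p)), BPOut D φ b₀ κ → VHyp κ b) :
    ∃ F : FormD b n B, F.MB = modOf ha ∧ F.q = q := by
  obtain ⟨b₀, _, κ, hκ⟩ := exists_bpOut hD hA U hP
  obtain ⟨h1, h2⟩ := hmod M ⟨i, δ, hM⟩
  have h3 : QOut n x κ ((modOf ha).tensorRight M) (q ≫ rdM i B) :=
    qOut_of_mod hκ.good hκ.surj hκ.ker hM (modOf ha) hq h1 h2
  exact exists_formD b (hv b₀ κ hκ) (modOf ha) hB hq hκ hx hM h3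

end form

end Vale.Agent.P221.T.H924
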