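import Vale.Agent.P221.T.BPS

/-!
# P221, part T (helper924): completions of modules

* `exists_compl` : a module over a monoid `R` has a `p`-completion, which is a module;
* `CompD p R P W` : the completions of `R` and of `R ⊗ R` (the fields of `BPS`);
* `exists_compD`.
-/

open CategoryTheory MonoidalCategory MonObj Limits Pretriangulated
open Vale.Agent.P251.T Vale.Agent.P251.M Vale.Agent.P251.S

set_option linter.unusedSectionVars false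

universe u

namespace Vale.Agent.P221.T.H924

open Vale.Agent.P221.H395

variable {𝒯 : Type u} [Category.{0} 𝒯] [Preadditive 𝒯] [HasZeroObject 𝒯]
    [HasShift 𝒯 ℤ] [∀ n : ℤ, (shiftFunctor 𝒯 n).Additive] [Pretriangulated 𝒯] [IsTriangulated 𝒯]
    [MonoidalCategory 𝒯] [SymmetricCategory 𝒯] [TensorTriangulated 𝒯] [MonoidalClosed 𝒯]
    [HasCoproducts.{0} 𝒯]

/-- shifts of isomorphisms mod `p` are isomorphisms mod `p` -/
theorem isIso_shift_mod {C X Y : 𝒯} (c : X ⟶ Y) (hc : IsIso (c ▷ C)) (k : ℤ) :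
    IsIso ((c⟦k⟧') ▷ C) := by
  have h1 : ((tensorRight C).commShiftIso k).hom.app X ≫ ((tensorRight C).map c)⟦k⟧' =
      (tensorRight C).map (c⟦k⟧') ≫ ((tensorRight C).commShiftIso k).hom.app Y :=
    (((tensorRight C).commShiftIso k).hom.naturality c).symm
  have h2 : IsIso ((tensorRight C).map c) := hc
  have h3 : IsIso ((tensorRight C).map (c⟦k⟧') ≫ ((tensorRight C).commShiftIso k).hom.app Y) := by
    rw [← h1]
    infer_instance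
  exact IsIso.of_isIso_comp_right ((tensorRight C).map (c⟦k⟧'))
    (((tensorRight C).commShiftIso k).hom.app Y)

/-- A module over a monoid `R` has a `p`-completion, which is a module. -/
theorem exists_compl (p : ℕ) {R X : 𝒯} [MonObj R] (M : ModStr R X) :
    ∃ (Y : 𝒯) (c : X ⟶ Y) (N : ModStr R Y), PComplete p Y ∧ M.IsLinear N c ∧
      (∀ (A Z : 𝒯), PComplete p Z → ∀ k : ℤ,
        Function.Bijective fun g : (A ⊗ Y)⟦k⟧ ⟶ Z => (A ◁ c)⟦k⟧' ≫ g) ∧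
      (∀ (C : 𝒯) (i : 𝟙_ 𝒯 ⟶ C) (δ : C ⟶ (𝟙_ 𝒯)⟦(1 : ℤ)⟧),
        Triangle.mk ((p : ℤ) • 𝟙 (𝟙_ 𝒯)) i δ ∈ distTriang 𝒯 → IsIso (c ▷ C)) := by
  obtain ⟨C, i, δ, hC⟩ := distinguished_cocone_triangle ((p : ℤ) • 𝟙 (𝟙_ 𝒯))
  obtain ⟨Y, c, hY, hc⟩ := exists_completion hC X
  obtain ⟨N, hN⟩ := exists_modStr hC M c hc hY
  refine ⟨Y, c, N, hY, hN, fun A Z hZ k => ?_, fun C' i' δ' hC' => ?_⟩
  · exact bij_of_isIso_mod hC ((A ◁ c)⟦k⟧')
      (isIso_shift_mod _ (isIso_whiskerLeft_mod A c hc) k) hZ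
  · obtain ⟨Q, q, w, h⟩ := distinguished_cocone_triangle c
    exact (isIso_mod_iff hC' h).2 ((isIso_mod_iff hC h).1 hc)

/-- The `p`-completions of `R` and of `R ⊗ R` (the fields `MP … w_bij` of `BPS`). -/
structure CompD (p : ℕ) (R P W : 𝒯) [MonObj R] where
  /-- the module structures -/
  MP : ModStr R P
  /-- the module structures -/
  MW : ModStr R W
  cP : PComplete p P
  cW : PComplete p W
  /-- the completion maps -/
  c : R ⟶ P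
  /-- the completion maps -/
  w : R ⊗ R ⟶ W
  c_lin : μ[R] ≫ c = (R ◁ c) ≫ MP.act
  w_lin : (ModStr.free R R).IsLinear MW w
  c_bij : ∀ (A Z : 𝒯), PComplete p Z → ∀ (k : ℤ),
    Function.Bijective fun g : (A ⊗ P)⟦k⟧ ⟶ Z => (A ◁ c)⟦k⟧' ≫ g
  w_bij : ∀ (A Z : 𝒯), PComplete p Z → ∀ (k : ℤ),
    Function.Bijective fun g : (A ⊗ W)⟦k⟧ ⟶ Z => (A ◁ w)⟦k⟧' ≫ g
  c_mod : ∀ (C : 𝒯) (i : 𝟙_ 𝒯 ⟶ C) (δ : C ⟶ (𝟙_ 𝒯)⟦(1 : ℤ)⟧),
    Triangle.mk ((p : ℤ) • 𝟙 (𝟙_ 𝒯)) i δ ∈ distTriang 𝒯 → IsIso (c ▷ C)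
  w_mod : ∀ (C : 𝒯) (i : 𝟙_ 𝒯 ⟶ C) (δ : C ⟶ (𝟙_ 𝒯)⟦(1 : ℤ)⟧),
    Triangle.mk ((p : ℤ) • 𝟙 (𝟙_ 𝒯)) i δ ∈ distTriang 𝒯 → IsIso (w ▷ C)

/-- the regular module -/
def selfM (R : 𝒯) [MonObj R] : ModStr R R where
  act := μ[R]
  one_act := MonObj.one_mul R
  mul_act := MonObj.mul_assoc R

/-- Completions exist. -/
theorem exists_compD (p : ℕ) (R : 𝒯) [MonObj R] : ∃ P W : 𝒯, Nonempty (CompD p R P W) := by
  obtain ⟨P, c, MP, cP, c_lin, c_bij, c_mod⟩ := exists_compl p (selfM R)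
  obtain ⟨W, w, MW, cW, w_lin, w_bij, w_mod⟩ := exists_compl p (ModStr.free R R)
  exact ⟨P, W, ⟨⟨MP, MW, cP, cW, c, w, c_lin, w_lin, c_bij, w_bij, c_mod, w_mod⟩⟩⟩

end Vale.Agent.P221.T.H924
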