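import Vale.Agent.P221.T.H924.FormTop
import Vale.Agent.P221.H509.Match

/-!
# P221 (helper924), part T: forms of the statement layer and `b : BPS` with the Hazewinkel classes
-/

open CategoryTheory MonoidalCategory MonObj Limits Pretriangulated
open MvPolynomial (C X coeff monomial rename)

set_option linter.unusedSectionVars false

noncomputable section

namespace Vale.Agent.P221.T.H924

open Vale.Agent.P251 Vale.Agent.P251.S Vale.Agent.P251.T Vale.Agent.P251.M Vale.Agent.P251.F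
  Vale.Agent.P251.I EvenSpheres Vale.Agent.P257.H702 Vale.Agent.P257.H80 Vale.Agent.P251.Q
  Vale.Agent.P251.St Vale.Agent.P257.St Vale.Agent.P221.H746 Vale.Agent.P221.H924
  Vale.Agent.P221.T Vale.Agent.P093.N0

variable {T : SHCat} {S : Susp T} {p : ℕ} [hp : Fact p.Prime] {n : ℕ} {P : RingSp T}
  {o : St.Oriented S P} {φ : P257.St.GHom S p P} {D : MUData T.C}
  {Pc W : T.C}
  {x : ∀ j : ℕ, SHCat.Hom (S.obj (Cn (p ^ j - 1))) P.obj}

theorem exists_bpOut' (hD : MUUniv (P251.M.lineIso S.toSpaceFunctor) D) (hA : MUAll D)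
    (U : MUFam (P251.M.lineIso S.toSpaceFunctor) D) (h : P257.St.IsBrownPeterson p o φ) :
    ∃ (b : D.R ⟶ P.obj) (_ : IsMonHom b)
      (κ : HRing (stdEven T.C) P.obj →+* MvPolynomial ℕ (ZMod p)),
      BPOut D φ b κ ∧ Vale.Agent.P257.H702.lawS o = lawOf b := by
  obtain ⟨b, hb, ho⟩ := U.exists_mapS o
  have hmon : IsBPMon p b := isBPMon_of_isBrownPeterson ptypOut hD U ptypIn h ho
  obtain ⟨κ, hs, hk, hl⟩ := exists_kappa hD hA hmon
  obtain ⟨Φ, hφ, hΦ⟩ := ptypOut P o φ h.typ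
  have hcomp : κ.comp Φ = redP p := by
    refine kappa_comp hΦ ?_
    rw [U.lawS_eq ho]
    exact hl
  exact ⟨b, hb, κ, ⟨hmon, good_bp hD hA hmon, hs, hk, hl,
    fun n x hx hc w y => qpi_kappa_isWH hx hc hD hA hmon hl w y,
    fun x j hj => kappa_polyGen hφ hcomp hj⟩, U.lawS_eq ho⟩

/-- **(FORM)** for the forms of the statement layer; `b` has the classes of the Hazewinkel
generators of `P` -/
theorem exists_formD_st (hD : MUUniv (P251.M.lineIso S.toSpaceFunctor) D)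
    (hA : MUAll D) (U : MUFam (P251.M.lineIso S.toSpaceFunctor) D)
    (hP : P257.St.IsBrownPeterson p o φ) (b : BPS p P.obj Pc W)
    {Φ : MvPolynomial ℕ ℤ →+* HRing (stdEven T.C) P.obj}
    (hφ : ∀ (m : ℕ) (x : P257.St.VPoly p m),
      Φ x = HRing.of (stdEven T.C) P.obj m ((isoE S m).inv ≫ φ m x))
    (hΦ : Vale.Agent.P257.H702.lawS o = (haz p).map Φ)
    (w : ℕ → ℤ) (hw : ∀ i, sV p (i + 1) = 2 * w i) (hw' : ∀ i, w i = ((p ^ (i + 1) - 1 : ℕ) : ℤ))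
    (hv : ∀ i, b.v i = eqToHom (congrArg (fun k => (𝟙_ T.C)⟦k⟧) (hw i)) ≫
      (stdSph (w i)).inv ≫ (Φ (MvPolynomial.X i)) (w i))
    {B : T.C} (hx : ∀ j, n < j → P221.St.IsPolyGen φ j (x j))
    (hB : P221.St.PComplete p B) {a : SHCat.Hom (SHCat.ten P.obj B) B} (ha : P221.St.IsAct a)
    {q : P.obj ⟶ B} (hq : P221.St.IsModMap P.mul a q)
    (hmod : ∀ M : T.C, P221.St.IsMoore p M →
        (∀ (k : ℤ) (y : (𝟙_ T.C)⟦k⟧ ⟶ B ⊗ M), ∃ u : (𝟙_ T.C)⟦k⟧ ⟶ P.obj ⊗ M,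
          u ≫ (q ▷ M) = y) ∧
        ∀ (k : ℤ) (u : (𝟙_ T.C)⟦k⟧ ⟶ P.obj ⊗ M), u ≫ (q ▷ M) = 0 ↔ P221.St.InGen n x M u) :
    ∃ F : FormD b n B, F.MB = modOf ha ∧ F.q = q := by
  obtain ⟨M, i, δ, hM⟩ := exists_moore (𝒯 := T.C) (p : ℤ)
  obtain ⟨b₀, _, κ, hκ, hl⟩ := exists_bpOut' hD hA U hP
  obtain ⟨h1, h2⟩ := hmod M ⟨i, δ, hM⟩
  have h3 : QOut n x κ ((modOf ha).tensorRight M) (q ≫ rdM i B) :=
    qOut_of_mod hκ.good hκ.surj hκ.ker hM (modOf ha) hq h1 h2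
  refine exists_formD b (vHyp_of_phi b hκ (hl.symm.trans hΦ) fun i => ?_) (modOf ha) hB hq hκ hx
    hM h3
  refine ⟨w i, hw i, (Φ (MvPolynomial.X i)) (w i), hv i, ?_⟩
  have h0 : Φ (MvPolynomial.X i) = HRing.of (stdEven T.C) P.obj ((p ^ (i + 1) - 1 : ℕ) : ℤ)
      ((isoE S _).inv ≫ hazV φ (i + 1)) := hφ _ ⟨vEl p (i + 1), vEl_mem p (i + 1)⟩
  rw [hw' i, h0]
  congr 1
  exact DirectSum.of_eq_same (β := (stdEven T.C).Gr P.obj) _ _

end Vale.Agent.P221.T.H924
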