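import Vale.Agent.P221.T.H924.FormAlg

/-!
# P221 (helper924), part T: free modules over `ℤ_p[v_1, v_2, …]`, algebra

`FB p Mg d y hfin` : `Mg k` are torsion free `p`-complete groups with an action of
`ℤ_p[v_1, v_2, …]`, and the classes `y_j ∈ Mg (d j)` are a basis modulo `p`.

* `FB.existsUnique` : the `y_j` are a basis;
* `FB.existsUnique_unit` : one class (field `free` of `BPS`);
* `FB.existsUnique_GG` : classes `y_E`, `E` a `T`-monomial (field `freeW` of `BPS`).
-/

open MvPolynomial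

namespace Vale.Agent.P221.T.H924

open Vale.Agent.P221.H924 Vale.Agent.P221.T.H746 Vale.Agent.P221.T.H769 Vale.Agent.P257.H80
  Vale.Agent.P251.F

set_option linter.unusedSectionVars false

section fin

variable (p : ℕ) [hp : Fact p.Prime]

theorem dT_nonneg' (μ : ℕ →₀ ℕ) : 0 ≤ dT p μ := by
  unfold dT
  rw [Finsupp.weight_apply]
  exact Finsupp.sum_nonneg fun j _ => smul_nonneg (Nat.zero_le _) (sV_pos p j).le

theorem lt_sV (i : ℕ) : (i : ℤ) < sV p (i + 1) := by
  induction i with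
  | zero => exact_mod_cast sV_pos p 0
  | succ i ih =>
    have := sV_lt p (show i + 1 < i + 1 + 1 by omega)
    push_cast
    omega

theorem le_dT (μ : ℕ →₀ ℕ) (i : ℕ) : (μ i : ℤ) * sV p (i + 1) ≤ dT p μ := by
  classical
  have h1 : μ = (μ - Finsupp.single i (μ i)) + Finsupp.single i (μ i) := by
    rw [tsub_add_cancel_of_le]
    rw [Finsupp.single_le_iff]
  have h2 := dT_nonneg' p (μ - Finsupp.single i (μ i))
  have h3 : dT p μ = dT p (μ - Finsupp.single i (μ i)) + (μ i : ℤ) * sV p (i + 1) := by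
    conv_lhs => rw [h1]
    unfold dT
    rw [map_add, Finsupp.weight_single, nsmul_eq_mul]
  omega

theorem finite_dT (k : ℤ) : {μ : ℕ →₀ ℕ | dT p μ ≤ k}.Finite := by
  classical
  let F : ℕ →₀ ℕ := Finsupp.onFinset (Finset.range k.toNat)
    (fun i => if i < k.toNat then k.toNat else 0) (by
      intro i hi
      by_contra h
      rw [Finset.mem_range] at h
      exact hi (if_neg h))
  refine (Set.finite_Icc (0 : ℕ →₀ ℕ) F).subset ?_
  intro μ hμ
  refine ⟨fun i => Nat.zero_le _, fun i => ?_⟩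
  change μ i ≤ if i < k.toNat then k.toNat else 0
  have h1 := le_dT p μ i
  have h2 := lt_sV p i
  have h3 : dT p μ ≤ k := hμ
  rcases Nat.eq_zero_or_pos (μ i) with h0 | h0
  · rw [h0]
    exact Nat.zero_le _
  · have h4 : sV p (i + 1) ≤ (μ i : ℤ) * sV p (i + 1) :=
      le_mul_of_one_le_left (by omega) (by exact_mod_cast h0)
    have h5 : (μ i : ℤ) ≤ (μ i : ℤ) * sV p (i + 1) :=
      le_mul_of_one_le_right (by omega) (by omega)
    rw [if_pos (by omega)]
    omega

end fin

section fb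

variable (p : ℕ) [hp : Fact p.Prime] {M : Type} [AddCommGroup M] [Module (KK p) M]
  {J : Type} (d : J → ℤ)

/-- the classes `y_j` are a basis modulo `p` -/
structure FB (Mg : ℤ → AddSubgroup M) (y : J → M) (hfin : ∀ k : ℤ, {j | d j ≤ k}.Finite) :
    Prop where
  nonneg : ∀ j, 0 ≤ d j
  smul_mem : ∀ {k m : ℤ} {f : KK p} {z : M}, HK p m f → z ∈ Mg k → f • z ∈ Mg (k + m)
  tf : ∀ k, ∀ z ∈ Mg k, (p : KK p) • z = 0 → z = 0
  uniq : ∀ k, Uniq p (Mg k)
  y_mem : ∀ j, y j ∈ Mg (d j)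
  surj : ∀ k, ∀ z ∈ Mg k, ∃ g : J → KK p, (∀ j, HK p (k - d j) (g j)) ∧
    ∃ z' ∈ Mg k, z = ∑ j ∈ (hfin k).toFinset, g j • y j + (p : KK p) • z'
  inj : ∀ (k : ℤ) (g : J → KK p), (∀ j, HK p (k - d j) (g j)) → ∀ z' ∈ Mg k,
    ∑ j ∈ (hfin k).toFinset, g j • y j = (p : KK p) • z' → ∀ j, red p (g j) = 0

/-- the pairs (class, monomial) of degree `k` -/
abbrev Mn (k : ℤ) : Type := {x : J × (ℕ →₀ ℕ) // d x.1 + dT p x.2 = k}

variable {p d}

theorem HK_neg {k : ℤ} (hk : k < 0) {f : KK p} (hf : HK p k f) : f = 0 := by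
  rcases eq_zero_or p hf with h | ⟨m, rfl⟩
  · exact h
  · omega

/-- the homogeneous coefficients -/
noncomputable def polJ [DecidableEq J] {k : ℤ} [Fintype (Mn p d k)] (c : Mn p d k → ℤ_[p])
    (j : J) : KK p :=
  ∑ i : Mn p d k, if i.1.1 = j then monomial i.1.2 (c i) else 0

section pol

variable [DecidableEq J] {k : ℤ} [Fintype (Mn p d k)]

theorem coeff_polJ (c : Mn p d k → ℤ_[p]) (i : Mn p d k) :
    coeff i.1.2 (polJ c i.1.1) = c i := by
  classical
  rw [polJ, coeff_sum, Finset.sum_eq_single i]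
  · rw [if_pos rfl, coeff_monomial, if_pos rfl]
  · intro i' _ hne
    split_ifs with h
    · rw [coeff_monomial, if_neg]
      intro h'
      exact hne (Subtype.ext (Prod.ext h h'))
    · exact coeff_zero _
  · intro h
    exact absurd (Finset.mem_univ i) h

theorem polJ_hom (c : Mn p d k → ℤ_[p]) (j : J) : HK p (k - d j) (polJ c j) := by
  refine (weightedHomogeneousSubmodule ℤ_[p] _ _).sum_mem fun i _ => ?_
  split_ifs with h
  · rw [mem_weightedHomogeneousSubmodule]
    refine isWeightedHomogeneous_monomial _ _ _ ?_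
    have h1 := i.2
    rw [h] at h1
    change dT p i.1.2 = _
    omega
  · exact Submodule.zero_mem _

theorem eq_polJ {g : J → KK p} (hg : ∀ j, HK p (k - d j) (g j)) :
    g = polJ fun i : Mn p d k => coeff i.1.2 (g i.1.1) := by
  funext j
  ext μ
  by_cases h : d j + dT p μ = k
  · exact (coeff_polJ (fun i : Mn p d k => coeff i.1.2 (g i.1.1)) ⟨(j, μ), h⟩).symm
  · have h0 : ∀ {f : KK p}, HK p (k - d j) f → coeff μ f = 0 := by
      intro f hf
      by_contra hne
      have h1 : dT p μ = k - d j := hf hne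
      omega
    rw [h0 (hg j), h0 (polJ_hom _ j)]

end pol

theorem finite_Mn (hd : ∀ j, 0 ≤ d j) (hfin : ∀ k : ℤ, {j | d j ≤ k}.Finite) (k : ℤ) :
    Finite (Mn p d k) := by
  have h0 : {x : J × (ℕ →₀ ℕ) | d x.1 + dT p x.2 = k}.Finite := by
    refine ((hfin k).prod (finite_dT p k)).subset ?_
    rintro ⟨j, μ⟩ h
    have h1 : d j + dT p μ = k := h
    have h2 := hd j
    have h3 := dT_nonneg' p μ
    exact ⟨show d j ≤ k by omega, show dT p μ ≤ k by omega⟩
  exact h0

namespace FB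

variable {Mg : ℤ → AddSubgroup M} {y : J → M} {hfin : ∀ k : ℤ, {j | d j ≤ k}.Finite}
  (H : FB p d Mg y hfin)

include H

theorem C_smul_mem {k : ℤ} (c : ℤ_[p]) {z : M} (hz : z ∈ Mg k) : (C c : KK p) • z ∈ Mg k := by
  have h := H.smul_mem (k := k) (m := 0) (f := (C c : KK p)) (isWeightedHomogeneous_C _ _) hz
  rwa [add_zero] at h

/-- the `ℤ_p`-module structure -/
@[reducible]
noncomputable def zmod (k : ℤ) : Module ℤ_[p] (Mg k) where
  smul c z := ⟨(C c : KK p) • (z : M), H.C_smul_mem c z.2⟩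
  one_smul z := Subtype.ext (by
    change (C 1 : KK p) • (z : M) = z
    rw [C_1, one_smul])
  mul_smul c d z := Subtype.ext (by
    change (C (c * d) : KK p) • (z : M) = (C c : KK p) • (C d : KK p) • (z : M)
    rw [C_mul, mul_smul])
  smul_zero c := Subtype.ext (smul_zero (C c : KK p))
  smul_add c z w := Subtype.ext (smul_add (C c : KK p) (z : M) w)
  add_smul c d z := Subtype.ext (by
    change (C (c + d) : KK p) • (z : M) = (C c : KK p) • (z : M) + (C d : KK p) • (z : M)
    rw [C_add, add_smul])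
  zero_smul z := Subtype.ext (by
    change (C 0 : KK p) • (z : M) = 0
    rw [C_0, zero_smul])

theorem mon_mem {k : ℤ} (i : Mn p d k) : (monomial i.1.2 (1 : ℤ_[p]) : KK p) • y i.1.1 ∈ Mg k := by
  have h := H.smul_mem (k := d i.1.1) (m := dT p i.1.2)
    (isWeightedHomogeneous_monomial _ i.1.2 (1 : ℤ_[p]) rfl) (H.y_mem i.1.1)
  rwa [i.2] at h

/-- the monomials of degree `k` times the classes -/
noncomputable def bas {k : ℤ} (i : Mn p d k) : Mg k :=
  ⟨(monomial i.1.2 (1 : ℤ_[p]) : KK p) • y i.1.1, H.mon_mem i⟩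

theorem sum_bas [DecidableEq J] {k : ℤ} [Fintype (Mn p d k)] (c : Mn p d k → ℤ_[p]) :
    letI := H.zmod k
    ((∑ i, c i • H.bas i : Mg k) : M) = ∑ j ∈ (hfin k).toFinset, polJ c j • y j := by
  let := H.zmod k
  rw [AddSubgroup.val_finsetSum]
  have h1 : ∀ j ∈ (hfin k).toFinset, polJ c j • y j =
      ∑ i : Mn p d k, if i.1.1 = j then (monomial i.1.2 (c i) : KK p) • y j else 0 := by
    intro j _
    rw [polJ, Finset.sum_smul]
    refine Finset.sum_congr rfl fun i _ => ?_
    split_ifs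
    · rfl
    · rw [zero_smul]
  rw [Finset.sum_congr rfl h1, Finset.sum_comm]
  refine Finset.sum_congr rfl fun i _ => ?_
  have hi : i.1.1 ∈ (hfin k).toFinset := by
    rw [Set.Finite.mem_toFinset]
    have h2 := i.2
    have h3 := dT_nonneg' p i.1.2
    change d i.1.1 ≤ k
    omega
  rw [Finset.sum_eq_single i.1.1 (fun j _ hj => if_neg (Ne.symm hj)) (fun h => absurd hi h),
    if_pos rfl]
  change (C (c i) : KK p) • (monomial i.1.2 (1 : ℤ_[p]) : KK p) • y i.1.1 = _
  rw [smul_smul, C_mul_monomial, mul_one]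

theorem sum_bas_int [DecidableEq J] {k : ℤ} [Fintype (Mn p d k)] (a : Mn p d k → ℤ) :
    ((∑ i, a i • H.bas i : Mg k) : M) =
      ∑ j ∈ (hfin k).toFinset, polJ (fun i => (a i : ℤ_[p])) j • y j := by
  let := H.zmod k
  rw [← H.sum_bas]
  congr 1
  refine Finset.sum_congr rfl fun i _ => ?_
  exact (Int.cast_smul_eq_zsmul ℤ_[p] (a i) (H.bas i)).symm

/-- **the classes `y_j` are a basis** -/
theorem existsUnique (k : ℤ) (z : M) (hz : z ∈ Mg k) :
    ∃! g : J → KK p, (∀ j, HK p (k - d j) (g j)) ∧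
      z = ∑ j ∈ (hfin k).toFinset, g j • y j := by
  classical
  let := H.zmod k
  have := finite_Mn (p := p) H.nonneg hfin k
  let _ : Fintype (Mn p d k) := Fintype.ofFinite _
  have h1 : ∀ z : Mg k, ∃ (a : Mn p d k → ℤ) (z' : Mg k),
      z = ∑ i, a i • H.bas i + p • z' := by
    intro z
    obtain ⟨g, hg, z', hz', e⟩ := H.surj k z z.2
    have h2 : ∀ i : Mn p d k, ∃ (a : ℤ) (c' : ℤ_[p]),
        coeff i.1.2 (g i.1.1) = (a : ℤ_[p]) + (p : ℤ_[p]) * c' := by
      intro i
      obtain ⟨a, ha⟩ := ZMod.intCast_surjective (PadicInt.toZMod (coeff i.1.2 (g i.1.1)))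
      obtain ⟨c', hc'⟩ := dvd_of_toZMod p (a := coeff i.1.2 (g i.1.1) - (a : ℤ_[p])) (by
        rw [map_sub, map_intCast, ha, sub_self])
      exact ⟨a, c', by rw [← hc']; ring⟩
    choose a c' hac using h2
    refine ⟨a, ∑ i, c' i • H.bas i + ⟨z', hz'⟩, Subtype.ext ?_⟩
    have h3 : (z : M) = ((∑ i : Mn p d k, coeff i.1.2 (g i.1.1) • H.bas i : Mg k) : M) +
        p • z' := by
      rw [H.sum_bas, ← eq_polJ hg, e, p_smul]
    have h4 : (∑ i : Mn p d k, coeff i.1.2 (g i.1.1) • H.bas i : Mg k) =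
        ∑ i, a i • H.bas i + p • ∑ i, c' i • H.bas i := by
      rw [Finset.smul_sum, ← Finset.sum_add_distrib]
      refine Finset.sum_congr rfl fun i _ => ?_
      rw [hac, add_smul, Int.cast_smul_eq_zsmul, mul_smul, Nat.cast_smul_eq_nsmul]
    rw [h3, h4, smul_add]
    simp only [AddSubgroup.coe_add, AddSubgroup.coe_nsmul]
    abel
  have h2 : ∀ (a : Mn p d k → ℤ) (z' : Mg k), ∑ i, a i • H.bas i = p • z' →
      ∀ i, (p : ℤ) ∣ a i := by
    intro a z' h i
    have h3 := congrArg (fun x : Mg k => (x : M)) h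
    beta_reduce at h3
    rw [H.sum_bas_int, AddSubgroup.coe_nsmul, ← p_smul (z' : M)] at h3
    have h4 := H.inj k _ (fun j => polJ_hom _ j) z' z'.2 h3 i.1.1
    have h6 := congrArg (coeff i.1.2) h4
    rw [red, coeff_map, coeff_polJ, coeff_zero, map_intCast] at h6
    exact (ZMod.intCast_zmod_eq_zero_iff_dvd _ _).1 h6
  obtain ⟨c, hc, hu⟩ := existsUnique_sum_of_mod (H.uniq k) (fun x hx => Subtype.ext
    (H.tf k x x.2 (by
      rw [p_smul]
      exact congrArg (fun x : Mg k => (x : M)) hx))) H.bas h1 h2 ⟨z, hz⟩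
  refine ⟨polJ c, ⟨fun j => polJ_hom c j, ?_⟩, ?_⟩
  · rw [← H.sum_bas]
    exact congrArg (fun x : Mg k => (x : M)) hc
  · rintro g ⟨hg, hg'⟩
    rw [eq_polJ hg]
    congr 1
    refine hu (fun i : Mn p d k => coeff i.1.2 (g i.1.1)) (Subtype.ext ?_)
    rw [H.sum_bas, ← eq_polJ hg]
    exact hg'

end FB

/-- one class -/
theorem FB.existsUnique_unit {Mg : ℤ → AddSubgroup M} {y : M}
    {hfin : ∀ k : ℤ, {_j : Unit | (0 : ℤ) ≤ k}.Finite}
    (H : FB p (fun _ : Unit => (0 : ℤ)) Mg (fun _ => y) hfin) (k : ℤ) (z : M) (hz : z ∈ Mg k) :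
    ∃! f : KK p, HK p k f ∧ z = f • y := by
  classical
  have key : ∀ g : KK p, HK p k g → ∑ j ∈ (hfin k).toFinset, g • y = g • y := by
    intro g hg
    rcases lt_or_ge k 0 with hk | hk
    · rw [HK_neg hk hg, zero_smul, Finset.sum_const, smul_zero]
    · have h1 : (hfin k).toFinset = {()} := by
        ext j
        simp [hk]
      rw [h1, Finset.sum_singleton]
  obtain ⟨g, ⟨hg, hg'⟩, hu⟩ := H.existsUnique k z hz
  have hg0 : HK p k (g ()) := by
    have := hg ()
    rwa [sub_zero] at this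
  refine ⟨g (), ⟨hg0, ?_⟩, ?_⟩
  · rw [← key _ hg0]
    exact hg'
  · rintro f ⟨hf, hf'⟩
    have h2 := hu (fun _ => f) ⟨fun _ => by rw [sub_zero]; exact hf, by rw [hf']; exact (key f hf).symm⟩
    exact congrFun h2 ()

/-- classes indexed by the `T`-monomials -/
theorem FB.existsUnique_GG {Mg : ℤ → AddSubgroup M} {y : (ℕ →₀ ℕ) → M}
    (H : FB p (dT p) Mg y (finite_dT p)) (k : ℤ) (z : M) (hz : z ∈ Mg k) :
    ∃! g : GG p, (∀ E, HK p (k - dT p E) (coeff E g)) ∧
      z = ∑ E ∈ g.support, coeff E g • y E := by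
  classical
  have key : ∀ g : GG p, (∀ E, HK p (k - dT p E) (coeff E g)) →
      ∑ E ∈ (finite_dT p k).toFinset, coeff E g • y E = ∑ E ∈ g.support, coeff E g • y E := by
    intro g hg
    refine (Finset.sum_subset ?_ ?_).symm
    · intro E hE
      rw [Set.Finite.mem_toFinset]
      by_contra h
      have h1 : k < dT p E := not_le.1 h
      exact mem_support_iff.1 hE (HK_neg (by omega) (hg E))
    · intro E _ hE
      rw [notMem_support_iff.1 hE, zero_smul]
  obtain ⟨g, ⟨hg, hg'⟩, hu⟩ := H.existsUnique k z hz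
  have hco : ∀ E, coeff E (∑ F ∈ (finite_dT p k).toFinset, monomial F (g F) : GG p) = g E := by
    intro E
    rw [coeff_sum]
    by_cases hE : E ∈ (finite_dT p k).toFinset
    · rw [Finset.sum_eq_single E]
      · rw [coeff_monomial, if_pos rfl]
      · intro F _ hF
        rw [coeff_monomial, if_neg hF]
      · intro h
        exact absurd hE h
    · have h1 : k < dT p E := by
        rw [Set.Finite.mem_toFinset] at hE
        exact not_le.1 hE
      rw [HK_neg (by omega) (hg E)]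
      refine Finset.sum_eq_zero fun F hF => ?_
      rw [coeff_monomial, if_neg]
      rintro rfl
      exact hE hF
  refine ⟨∑ F ∈ (finite_dT p k).toFinset, monomial F (g F), ⟨fun E => ?_, ?_⟩, ?_⟩
  · rw [hco]
    exact hg E
  · rw [← key _ (fun E => by rw [hco]; exact hg E), hg']
    refine Finset.sum_congr rfl fun E _ => ?_
    rw [hco]
  · rintro f ⟨hf, hf'⟩
    have h2 := hu (fun E => coeff E f) ⟨hf, by rw [hf']; exact (key f hf).symm⟩
    ext1 E
    rw [hco]
    exact congrFun h2 E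

end fb

end Vale.Agent.P221.T.H924
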