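import Vale.Agent.P251.M.QOut
import Vale.Agent.P221.T.Ext

/-!
# P221 (helper924), part T: the even spheres `S^{2n} = L^n`, `L = S¹ ⊗ S¹`, and shifts

* `mu_succ` : recursion for `S^{2m} ⊗ S^{2n} ≅ S^{2(m+n)}`;
* `sh k X : X ⊗ L^k ≅ X⟦2k⟧`; `sh_mu`, `sh_csh` : compatibility with products and with the
  commutation of `X ⊗ -` with shifts;
* `gsmul_eq_mul` : the products of homotopy classes through even spheres and through shifts agree.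
-/

open CategoryTheory MonoidalCategory Limits Pretriangulated MonObj

set_option linter.unusedSectionVars false

universe v u

namespace Vale.Agent.P221.T.H924

open Vale.Agent.P251 Vale.Agent.P251.S Vale.Agent.P251.T Vale.Agent.P251.M EvenSpheres

section mu

variable {T : Type u} [Category.{v} T] [MonoidalCategory T] [SymmetricCategory T]
  (E : EvenSpheres T)

/-- `L ⊗ S^{2k} = S^{2(k+1)}` is framed -/
theorem isFr_succ (k : ℕ) : IsFr ((Fr.self E.L).tensor (E.fr (k : ℤ)))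
    (E.fr ((k + 1 : ℕ) : ℤ)) (𝟙 (E.L ⊗ Pw E.L k)) := by
  have h1 : IsFr ((Fr.self E.L).tensor (E.fr (k : ℤ)))
      ((Fr.self E.L).tensor ((Fr.self E.L).pow k)) (E.L ◁ 𝟙 (Pw E.L k)) :=
    IsFr.whiskerLeft (by simp) (isFr_cast' ((Fr.self E.L).pow k)
      (show (1 : ℤ) * (k : ℤ) = (k : ℤ) by ring))
  have h2 := isFr_cast ((Fr.self E.L).tensor ((Fr.self E.L).pow k))
    (show (1 : ℤ) + 1 * (k : ℤ) = 1 * ((k + 1 : ℕ) : ℤ) by push_cast; ring)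
  have h3 := isFr_cast (((Fr.self E.L).tensor ((Fr.self E.L).pow k)).cast
    (show (1 : ℤ) + 1 * (k : ℤ) = 1 * ((k + 1 : ℕ) : ℤ) by push_cast; ring))
    (show (1 : ℤ) * ((k + 1 : ℕ) : ℤ) = ((k + 1 : ℕ) : ℤ) by ring)
  have h4 := IsFr.comp (by ring) (by push_cast; ring) h1
    (IsFr.comp (by push_cast; ring) (by ring) h2 h3)
  have e : (E.L ◁ 𝟙 (Pw E.L k)) ≫ 𝟙 (E.L ⊗ Pw E.L k) ≫ 𝟙 (E.L ⊗ Pw E.L k) =
      𝟙 (E.L ⊗ Pw E.L k) := by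
    rw [Category.comp_id, Category.comp_id, MonoidalCategory.whiskerLeft_id]
  rw [← e]
  exact h4

theorem mu_succ (m n l : ℕ) (h : ((m + 1 : ℕ) : ℤ) + (n : ℤ) = ((l + 1 : ℕ) : ℤ))
    (h' : (m : ℤ) + (n : ℤ) = (l : ℤ)) :
    (E.mu ((m + 1 : ℕ) : ℤ) n ((l + 1 : ℕ) : ℤ) h).hom =
      (α_ E.L (Pw E.L m) (Pw E.L n)).hom ≫ E.L ◁ (E.mu m n l h').hom := by
  refine IsFr.unique (F := (E.fr _).tensor (E.fr _)) (G := E.fr _) h (E.isFr_mu _ _ _ h) ?_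
  have h1 : IsFr ((E.fr ((m + 1 : ℕ) : ℤ)).tensor (E.fr (n : ℤ)))
      (((Fr.self E.L).tensor (E.fr (m : ℤ))).tensor (E.fr (n : ℤ)))
      ((𝟙 (E.L ⊗ Pw E.L m)) ▷ Pw E.L n) :=
    IsFr.whiskerRight (by push_cast; ring)
      (IsFr.inv' (f := Iso.refl (E.L ⊗ Pw E.L m)) (by push_cast; ring) (isFr_succ E m))
  have h2 := isFr_associator (Fr.self E.L) (E.fr (m : ℤ)) (E.fr (n : ℤ))
  have h3 : IsFr ((Fr.self E.L).tensor ((E.fr (m : ℤ)).tensor (E.fr (n : ℤ))))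
      ((Fr.self E.L).tensor (E.fr (l : ℤ))) (E.L ◁ (E.mu m n l h').hom) :=
    IsFr.whiskerLeft h' (E.isFr_mu _ _ _ h')
  have h4 := IsFr.comp (by push_cast at h ⊢; omega) (by push_cast at h ⊢; omega) h1
    (IsFr.comp (by omega) (by push_cast at h ⊢; omega) h2
      (IsFr.comp (by push_cast at h ⊢; omega) (by push_cast at h ⊢; omega) h3 (isFr_succ E l)))
  have e : ((𝟙 (E.L ⊗ Pw E.L m)) ▷ Pw E.L n) ≫ (α_ E.L (Pw E.L m) (Pw E.L n)).hom ≫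
      (E.L ◁ (E.mu m n l h').hom) ≫ 𝟙 (E.L ⊗ Pw E.L l) =
        (α_ E.L (Pw E.L m) (Pw E.L n)).hom ≫ E.L ◁ (E.mu m n l h').hom := by
    rw [MonoidalCategory.id_whiskerRight]
    exact (Category.id_comp _).trans (congrArg ((α_ E.L (Pw E.L m) (Pw E.L n)).hom ≫ ·)
      (Category.comp_id _))
  rw [← e]
  exact h4

end mu

section sh

variable {T : Type u} [Category.{v} T] [Preadditive T] [HasZeroObject T]
    [HasShift T ℤ] [∀ n : ℤ, (shiftFunctor T n).Additive] [Pretriangulated T]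
    [MonoidalCategory T] [SymmetricCategory T] [TensorTriangulated T]

/-- `X ⊗ L ≅ X⟦2⟧` -/
noncomputable def s2 (X : T) : X ⊗ (stdEven T).L ≅ X⟦(2 : ℤ)⟧ :=
  ((curriedTensor T).flip.mapIso (Iso.refl (stdEven T).L) ≪≫ tensorS2).app X

/-- `X ⊗ L^k ≅ X⟦2k⟧` -/
noncomputable def sh (k : ℕ) (X : T) : X ⊗ Pw (stdEven T).L k ≅ X⟦2 * (k : ℤ)⟧ :=
  ((stdEven T).shiftNat (Iso.refl _) (k : ℤ)).app X

theorem sh_zero (X : T) : (sh 0 X).hom = (ρ_ X).hom ≫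
    (shiftFunctorZero' T (2 * ((0 : ℕ) : ℤ)) (by simp)).inv.app X := rfl

theorem sh_succ (k : ℕ) (X : T) : (sh (k + 1) X).hom =
    (α_ X (stdEven T).L (Pw (stdEven T).L k)).inv ≫ ((s2 X).hom ▷ Pw (stdEven T).L k) ≫
      (sh k (X⟦(2 : ℤ)⟧)).hom ≫ (shiftFunctorAdd' T (2 : ℤ) (2 * (k : ℤ))
        (2 * ((k + 1 : ℕ) : ℤ)) (by push_cast; ring)).inv.app X := rfl

@[reassoc]
theorem sh_nat (k : ℕ) {X Y : T} (f : X ⟶ Y) :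
    (f ▷ Pw (stdEven T).L k) ≫ (sh k Y).hom = (sh k X).hom ≫ f⟦2 * (k : ℤ)⟧' :=
  ((stdEven T).shiftNat (Iso.refl _) (k : ℤ)).hom.naturality f

@[reassoc]
theorem s2_nat {X Y : T} (f : X ⟶ Y) :
    (f ▷ (stdEven T).L) ≫ (s2 Y).hom = (s2 X).hom ≫ f⟦(2 : ℤ)⟧' :=
  ((curriedTensor T).flip.mapIso (Iso.refl (stdEven T).L) ≪≫ tensorS2).hom.naturality f

theorem s2_eq (X : T) : (s2 X).hom = (α_ X ((𝟙_ T)⟦(1 : ℤ)⟧) ((𝟙_ T)⟦(1 : ℤ)⟧)).inv ≫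
    ((TensorTriangulated.e X).hom ▷ ((𝟙_ T)⟦(1 : ℤ)⟧)) ≫ (TensorTriangulated.e (X⟦(1 : ℤ)⟧)).hom ≫
      (shiftFunctorAdd' T (1 : ℤ) 1 2 (by norm_num)).inv.app X := by
  have h : (s2 X).hom = (X ◁ 𝟙 (stdEven T).L) ≫ (α_ X ((𝟙_ T)⟦(1 : ℤ)⟧) ((𝟙_ T)⟦(1 : ℤ)⟧)).inv ≫
    ((TensorTriangulated.e X).hom ▷ ((𝟙_ T)⟦(1 : ℤ)⟧)) ≫ (TensorTriangulated.e (X⟦(1 : ℤ)⟧)).hom ≫
      (shiftFunctorAdd' T (1 : ℤ) 1 2 (by norm_num)).inv.app X := rfl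
  rw [h, MonoidalCategory.whiskerLeft_id]
  exact Category.id_comp _

theorem zero_add_inv (z k : ℤ) (hz : z = 0) (h : z + k = k) (X : T) :
    ((shiftFunctorZero' T z hz).inv.app X)⟦k⟧' ≫ (shiftFunctorAdd' T z k k h).inv.app X =
      𝟙 _ := by
  subst hz
  rw [shiftFunctorAdd'_zero_add_inv_app, ← Functor.map_comp]
  have h1 : (shiftFunctorZero' T (0 : ℤ) rfl).inv.app X ≫ (shiftFunctorZero T ℤ).hom.app X =
      𝟙 X := by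
    simp [shiftFunctorZero']
  rw [h1]
  exact (shiftFunctor T k).map_id X

theorem aux0 {X A X' Y : T} (z : X ⟶ X') (g : X' ⊗ A ⟶ Y) :
    (α_ X (𝟙_ T) A).inv ≫ (((ρ_ X).hom ≫ z) ▷ A) ≫ g = (X ◁ (λ_ A).hom) ≫ (z ▷ A) ≫ g := by
  rw [comp_whiskerRight, Category.assoc, triangle_assoc_comp_right_assoc]

theorem aux1 {X L A B X2 Y Z W : T} (s : X ⊗ L ⟶ X2) (t : X2 ⊗ A ⟶ Y) (u : Y ⟶ Z)
    (g : Z ⊗ B ⟶ W) :
    (α_ X (L ⊗ A) B).inv ≫ (((α_ X L A).inv ≫ (s ▷ A) ≫ t ≫ u) ▷ B) ≫ g =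
      (X ◁ (α_ L A B).hom) ≫ (α_ X L (A ⊗ B)).inv ≫ (s ▷ (A ⊗ B)) ≫ (α_ X2 A B).inv ≫
        (t ▷ B) ≫ (u ▷ B) ≫ g := by
  simp only [comp_whiskerRight, Category.assoc]
  have h : (s ▷ (A ⊗ B)) ≫ (α_ X2 A B).inv = (α_ (X ⊗ L) A B).inv ≫ ((s ▷ A) ▷ B) := by
    rw [associator_inv_naturality_left]
  rw [reassoc_of% h]
  have h2 : (α_ X (L ⊗ A) B).inv ≫ ((α_ X L A).inv ▷ B) =
      (X ◁ (α_ L A B).hom) ≫ (α_ X L (A ⊗ B)).inv ≫ (α_ (X ⊗ L) A B).inv := by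
    rw [← pentagon_inv, whiskerLeft_hom_inv_assoc]
  rw [reassoc_of% h2]

theorem aux2 {X L A B X2 C : T} (s : X ⊗ L ⟶ X2) (m : A ⊗ B ⟶ C) {Y : T} (g : X2 ⊗ C ⟶ Y) :
    (X ◁ (α_ L A B).hom) ≫ (α_ X L (A ⊗ B)).inv ≫ (s ▷ (A ⊗ B)) ≫ (X2 ◁ m) ≫ g =
      (X ◁ ((α_ L A B).hom ≫ (L ◁ m))) ≫ (α_ X L C).inv ≫ (s ▷ C) ≫ g := by
  rw [← whisker_exchange_assoc, MonoidalCategory.whiskerLeft_comp, Category.assoc]
  simp

/-- `L^m ⊗ L^n ≅ L^l` -/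
noncomputable def mN {m n l : ℕ} (h : (m : ℤ) + (n : ℤ) = (l : ℤ)) :
    Pw (stdEven T).L m ⊗ Pw (stdEven T).L n ≅ Pw (stdEven T).L l := (stdEven T).mu m n l h

theorem mN_zero {n : ℕ} (h : ((0 : ℕ) : ℤ) + (n : ℤ) = (n : ℤ)) :
    (mN (T := T) h).hom = (λ_ (Pw (stdEven T).L n)).hom :=
  (stdEven T).zero_mu n (zero_add _)

theorem mN_succ {m n l : ℕ} (h : ((m + 1 : ℕ) : ℤ) + (n : ℤ) = ((l + 1 : ℕ) : ℤ))
    (h' : (m : ℤ) + (n : ℤ) = (l : ℤ)) : (mN (T := T) h).hom =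
      (α_ (stdEven T).L (Pw (stdEven T).L m) (Pw (stdEven T).L n)).hom ≫
        (stdEven T).L ◁ (mN h').hom := mu_succ (stdEven T) m n l h h'

/-- compatibility with products -/
theorem sh_mu (m : ℕ) : ∀ (n l : ℕ) (h : (m : ℤ) + (n : ℤ) = (l : ℤ)) (X : T),
    (α_ X (Pw (stdEven T).L m) (Pw (stdEven T).L n)).inv ≫
      ((sh m X).hom ▷ Pw (stdEven T).L n) ≫ (sh n (X⟦2 * (m : ℤ)⟧)).hom ≫
        (shiftFunctorAdd' T (2 * (m : ℤ)) (2 * (n : ℤ)) (2 * (l : ℤ)) (by omega)).inv.app X =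
      (X ◁ (mN h).hom) ≫ (sh l X).hom := by
  induction m with
  | zero =>
    intro n l h X
    obtain rfl : n = l := by push_cast at h; omega
    rw [mN_zero]
    refine (aux0 ((shiftFunctorZero' T (2 * ((0 : ℕ) : ℤ)) (by simp)).inv.app X) _).trans ?_
    rw [sh_nat_assoc, zero_add_inv, Category.comp_id]
    rfl
  | succ m ih =>
    intro n l h X
    obtain ⟨l, rfl⟩ : ∃ l', l = l' + 1 := ⟨l - 1, by push_cast at h; omega⟩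
    have h' : (m : ℤ) + (n : ℤ) = (l : ℤ) := by push_cast at h; omega
    have e2 := shiftFunctorAdd'_assoc_inv_app (C := T) (2 : ℤ) (2 * (m : ℤ)) (2 * (n : ℤ))
      (2 * ((m + 1 : ℕ) : ℤ)) (2 * (l : ℤ)) (2 * ((l + 1 : ℕ) : ℤ)) (by push_cast; ring)
      (by omega) (by push_cast; omega) X
    have e3 := congrArg (fun g => g ≫ (shiftFunctorAdd' T (2 : ℤ) (2 * (l : ℤ))
      (2 * ((l + 1 : ℕ) : ℤ)) (by push_cast; ring)).inv.app X) (ih n l h' (X⟦(2 : ℤ)⟧))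
    simp only [Category.assoc] at e3
    refine (aux1 (s2 X).hom (sh m (X⟦(2 : ℤ)⟧)).hom ((shiftFunctorAdd' T (2 : ℤ) (2 * (m : ℤ))
      (2 * ((m + 1 : ℕ) : ℤ)) (by push_cast; ring)).inv.app X) _).trans ?_
    rw [sh_nat_assoc, e2, e3, mN_succ h h', sh_succ]
    exact aux2 (s2 X).hom (mN h').hom _

/-! ### commutation with shifts -/

theorem csh_add' (X : T) {a b c : ℤ} (h : a + b = c) (Y : T) : (csh X c Y).hom =
    (X ◁ (shiftFunctorAdd' T a b c h).hom.app Y) ≫ (csh X b (Y⟦a⟧)).hom ≫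
      ((csh X a Y).hom)⟦b⟧' ≫ (shiftFunctorAdd' T a b c h).inv.app (X ⊗ Y) := by
  have h1 := congrArg (fun z => z.hom.app Y) (Functor.commShiftIso_add' (tensorLeft X) h)
  rw [Functor.CommShift.isoAdd'_hom_app] at h1
  exact h1

theorem csh_zero' (X : T) {z : ℤ} (h : z = 0) (Y : T) : (csh X z Y).hom =
    (X ◁ (shiftFunctorZero' T z h).hom.app Y) ≫ (shiftFunctorZero' T z h).inv.app (X ⊗ Y) := by
  have h1 := congrArg (fun z => z.hom.app Y) (Functor.commShiftIso_zero' (tensorLeft X) ℤ z h)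
  rw [Functor.CommShift.isoZero'_hom_app] at h1
  exact h1

theorem aux3 {X Y L A Y2 Z W : T} (s : Y ⊗ L ⟶ Y2) (t : Y2 ⊗ A ⟶ Z) (g : X ⊗ Z ⟶ W) :
    (α_ X Y (L ⊗ A)).hom ≫ (X ◁ ((α_ Y L A).inv ≫ (s ▷ A) ≫ t)) ≫ g =
      (α_ (X ⊗ Y) L A).inv ≫ (((α_ X Y L).hom ≫ (X ◁ s)) ▷ A) ≫ (α_ X Y2 A).hom ≫
        (X ◁ t) ≫ g := by
  simp only [MonoidalCategory.whiskerLeft_comp, comp_whiskerRight, Category.assoc, whisker_assoc,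
    Iso.inv_hom_id_assoc]
  monoidal

theorem e_csh (X Y : T) : (α_ X Y ((𝟙_ T)⟦(1 : ℤ)⟧)).hom ≫
    (X ◁ (TensorTriangulated.e Y).hom) ≫ (csh X 1 Y).hom = (TensorTriangulated.e (X ⊗ Y)).hom := by
  rw [csh_one, whiskerLeft_hom_inv_assoc, Iso.hom_inv_id_assoc]

/-- `X ⊗ L ≅ X⟦2⟧` and the commutation isomorphisms -/
theorem s2_csh (X Y : T) : (α_ X Y (stdEven T).L).hom ≫ (X ◁ (s2 Y).hom) ≫ (csh X 2 Y).hom =
    (s2 (X ⊗ Y)).hom := by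
  rw [s2_eq Y, s2_eq (X ⊗ Y)]
  refine (aux3 (TensorTriangulated.e Y).hom ((TensorTriangulated.e (Y⟦(1 : ℤ)⟧)).hom ≫
    (shiftFunctorAdd' T (1 : ℤ) 1 2 (by norm_num)).inv.app Y) (csh X 2 Y).hom).trans ?_
  have h1 : (X ◁ ((TensorTriangulated.e (Y⟦(1 : ℤ)⟧)).hom ≫
      (shiftFunctorAdd' T (1 : ℤ) 1 2 (by norm_num)).inv.app Y)) ≫ (csh X 2 Y).hom =
        (α_ X (Y⟦(1 : ℤ)⟧) ((𝟙_ T)⟦(1 : ℤ)⟧)).inv ≫ ((csh X 1 Y).hom ▷ ((𝟙_ T)⟦(1 : ℤ)⟧)) ≫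
          (TensorTriangulated.e ((X ⊗ Y)⟦(1 : ℤ)⟧)).hom ≫
            (shiftFunctorAdd' T (1 : ℤ) 1 2 (by norm_num)).inv.app (X ⊗ Y) := by
    rw [csh_add' X (show (1 : ℤ) + 1 = 2 by norm_num) Y, MonoidalCategory.whiskerLeft_comp,
      Category.assoc, ← MonoidalCategory.whiskerLeft_comp_assoc X
        ((shiftFunctorAdd' T (1 : ℤ) 1 2 _).inv.app Y), Iso.inv_hom_id_app,
      MonoidalCategory.whiskerLeft_id, Category.id_comp]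
    have h2 := TensorTriangulated.e_naturality (csh X 1 Y).hom
    have h3 : (X ◁ (TensorTriangulated.e (Y⟦(1 : ℤ)⟧)).hom) ≫ (csh X 1 (Y⟦(1 : ℤ)⟧)).hom =
        (α_ X (Y⟦(1 : ℤ)⟧) ((𝟙_ T)⟦(1 : ℤ)⟧)).inv ≫
          (TensorTriangulated.e (X ⊗ Y⟦(1 : ℤ)⟧)).hom := by
      rw [← e_csh, Iso.inv_hom_id_assoc]
    rw [reassoc_of% h3, reassoc_of% h2]
  rw [h1, Iso.hom_inv_id_assoc, ← comp_whiskerRight_assoc, Category.assoc, e_csh]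

/-- `X ⊗ L^k ≅ X⟦2k⟧` and the commutation isomorphisms -/
theorem sh_csh (X : T) (k : ℕ) : ∀ Y : T, (α_ X Y (Pw (stdEven T).L k)).hom ≫
    (X ◁ (sh k Y).hom) ≫ (csh X (2 * (k : ℤ)) Y).hom = (sh k (X ⊗ Y)).hom := by
  induction k with
  | zero =>
    intro Y
    have h0 : 2 * ((0 : ℕ) : ℤ) = 0 := by simp
    have h1 : (α_ X Y (𝟙_ T)).hom ≫ (X ◁ ((ρ_ Y).hom ≫ (shiftFunctorZero' T _ h0).inv.app Y)) ≫
        (csh X (2 * ((0 : ℕ) : ℤ)) Y).hom =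
          (ρ_ (X ⊗ Y)).hom ≫ (shiftFunctorZero' T _ h0).inv.app (X ⊗ Y) := by
      rw [csh_zero' X h0, MonoidalCategory.whiskerLeft_comp, Category.assoc,
        ← MonoidalCategory.whiskerLeft_comp_assoc X ((shiftFunctorZero' T _ h0).inv.app Y),
        Iso.inv_hom_id_app]
      simp
    exact h1
  | succ k ih =>
    intro Y
    have h0 : (2 : ℤ) + 2 * (k : ℤ) = 2 * ((k + 1 : ℕ) : ℤ) := by push_cast; ring
    rw [sh_succ, sh_succ]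
    refine (aux3 (s2 Y).hom ((sh k (Y⟦(2 : ℤ)⟧)).hom ≫
      (shiftFunctorAdd' T (2 : ℤ) (2 * (k : ℤ)) (2 * ((k + 1 : ℕ) : ℤ)) h0).inv.app Y) _).trans ?_
    have h1 : (X ◁ ((sh k (Y⟦(2 : ℤ)⟧)).hom ≫ (shiftFunctorAdd' T (2 : ℤ) (2 * (k : ℤ))
          (2 * ((k + 1 : ℕ) : ℤ)) h0).inv.app Y)) ≫ (csh X (2 * ((k + 1 : ℕ) : ℤ)) Y).hom =
        (α_ X (Y⟦(2 : ℤ)⟧) (Pw (stdEven T).L k)).inv ≫
          ((csh X 2 Y).hom ▷ (Pw (stdEven T).L k)) ≫ (sh k ((X ⊗ Y)⟦(2 : ℤ)⟧)).hom ≫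
            (shiftFunctorAdd' T (2 : ℤ) (2 * (k : ℤ)) (2 * ((k + 1 : ℕ) : ℤ)) h0).inv.app
              (X ⊗ Y) := by
      rw [csh_add' X h0 Y, MonoidalCategory.whiskerLeft_comp,
        Category.assoc, ← MonoidalCategory.whiskerLeft_comp_assoc X
          ((shiftFunctorAdd' T (2 : ℤ) (2 * (k : ℤ)) (2 * ((k + 1 : ℕ) : ℤ)) h0).inv.app Y),
        Iso.inv_hom_id_app, MonoidalCategory.whiskerLeft_id, Category.id_comp]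
      have h3 := ih (Y⟦(2 : ℤ)⟧)
      rw [← Iso.eq_inv_comp] at h3
      rw [reassoc_of% h3, sh_nat_assoc]
    rw [h1, Iso.hom_inv_id_assoc, ← comp_whiskerRight_assoc, Category.assoc, s2_csh]

/-! ### products -/

theorem aux4 {X Y A B C P Q : T} (m : A ⊗ B ≅ C) (f : 𝟙_ T ⊗ A ⟶ P) (a : P ⟶ X)
    (g : 𝟙_ T ⊗ B ⟶ Q) (y : Q ⟶ Y) :
    m.inv ≫ (((λ_ A).inv ≫ f ≫ a) ⊗ₘ ((λ_ B).inv ≫ g ≫ y)) =
      (λ_ C).inv ≫ ((𝟙_ T) ◁ m.inv) ≫ (α_ (𝟙_ T) A B).inv ≫ (f ▷ B) ≫ (a ▷ B) ≫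
        ((ρ_ X).inv ▷ B) ≫ (α_ X (𝟙_ T) B).hom ≫ (X ◁ g) ≫ (X ◁ y) := by
  rw [MonoidalCategory.tensorHom_def]
  simp only [comp_whiskerRight, MonoidalCategory.whiskerLeft_comp, Category.assoc]
  rw [← leftUnitor_inv_naturality_assoc]
  congr 1
  simp

theorem ext_eq_nat {m n l : ℕ} (h : (m : ℤ) + (n : ℤ) = (l : ℤ)) {X Y : T}
    (a : (𝟙_ T)⟦2 * (m : ℤ)⟧ ⟶ X) (y : (𝟙_ T)⟦2 * (n : ℤ)⟧ ⟶ Y) :
    (stdEven T).ext h ((stdSph (m : ℤ)).hom ≫ a) ((stdSph (n : ℤ)).hom ≫ y) =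
      (stdSph (l : ℤ)).hom ≫ (shiftFunctorAdd' T (2 * (m : ℤ)) (2 * (n : ℤ)) (2 * (l : ℤ))
        (by omega)).hom.app (𝟙_ T) ≫ a⟦2 * (n : ℤ)⟧' ≫ ((ρ_ X).inv)⟦2 * (n : ℤ)⟧' ≫
          (csh X (2 * (n : ℤ)) (𝟙_ T)).inv ≫ (X ◁ y) := by
  have h1 : (sh l (𝟙_ T)).hom ≫ (shiftFunctorAdd' T (2 * (m : ℤ)) (2 * (n : ℤ)) (2 * (l : ℤ))
      (by omega)).hom.app (𝟙_ T) = ((𝟙_ T) ◁ (mN h).inv) ≫ (α_ _ _ _).inv ≫
        ((sh m (𝟙_ T)).hom ▷ Pw (stdEven T).L n) ≫ (sh n ((𝟙_ T)⟦2 * (m : ℤ)⟧)).hom := by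
    rw [← cancel_mono ((shiftFunctorAdd' T (2 * (m : ℤ)) (2 * (n : ℤ)) (2 * (l : ℤ))
      (by omega)).inv.app (𝟙_ T))]
    simp only [Category.assoc, Iso.hom_inv_id_app]
    rw [sh_mu m n l h (𝟙_ T), whiskerLeft_inv_hom_assoc]
    exact Category.comp_id _
  have h3 : (sh n (X ⊗ 𝟙_ T)).hom ≫ (csh X (2 * (n : ℤ)) (𝟙_ T)).inv =
      (α_ X (𝟙_ T) (Pw (stdEven T).L n)).hom ≫ (X ◁ (sh n (𝟙_ T)).hom) := by
    rw [Iso.comp_inv_eq, Category.assoc, sh_csh]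
  have h4 : ∀ {Z : T} (z : (𝟙_ T)⟦2 * (l : ℤ)⟧ ⟶ Z), (stdSph (T := T) (l : ℤ)).hom ≫ z =
      (λ_ (Pw (stdEven T).L l)).inv ≫ (sh l (𝟙_ T)).hom ≫ z := fun z => Category.assoc _ _ _
  refine Eq.trans ?_ (h4 _).symm
  rw [reassoc_of% h1, ← sh_nat_assoc, ← sh_nat_assoc, reassoc_of% h3]
  have h5 : (stdSph (T := T) (m : ℤ)).hom ≫ a =
      (λ_ (Pw (stdEven T).L m)).inv ≫ (sh m (𝟙_ T)).hom ≫ a := Category.assoc _ _ _
  have h6 : (stdSph (T := T) (n : ℤ)).hom ≫ y =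
      (λ_ (Pw (stdEven T).L n)).inv ≫ (sh n (𝟙_ T)).hom ≫ y := Category.assoc _ _ _
  refine (congrArg₂ (fun u v => (stdEven T).ext h u v) h5 h6).trans ?_
  exact aux4 (mN h) (sh m (𝟙_ T)).hom a (sh n (𝟙_ T)).hom y

/-- **the isomorphisms `S^{2m} ⊗ S^{2n} ≅ S^{2l}` and the shifts** -/
theorem stdSph_mu {m n l : ℤ} (hm : 0 ≤ m) (hn : 0 ≤ n) (h : m + n = l)
    (h' : 2 * m + 2 * n = 2 * l) :
    (shiftFunctorAdd' T (2 * m) (2 * n) (2 * l) h').hom.app (𝟙_ T) ≫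
      (tensorSph (2 * n) ((𝟙_ T)⟦2 * m⟧)).inv ≫ ((stdSph m).inv ⊗ₘ (stdSph n).inv) ≫
        ((stdEven T).mu m n l h).hom = (stdSph l).inv := by
  obtain ⟨m, rfl⟩ := Int.eq_ofNat_of_zero_le hm
  obtain ⟨n, rfl⟩ := Int.eq_ofNat_of_zero_le hn
  obtain ⟨l, rfl⟩ := Int.eq_ofNat_of_zero_le (show 0 ≤ l by omega)
  have h1 := ext_eq_nat h (stdSph (T := T) (m : ℤ)).inv (stdSph (T := T) (n : ℤ)).inv
  rw [Iso.hom_inv_id, Iso.hom_inv_id] at h1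
  have h2 : (stdEven T).ext h (𝟙 ((stdEven T).S (m : ℤ))) (𝟙 ((stdEven T).S (n : ℤ))) =
      ((stdEven T).mu m n l h).inv := by
    unfold EvenSpheres.ext
    rw [id_tensorHom_id]
    exact Category.comp_id _
  rw [h2] at h1
  have h3 : ((stdSph (T := T) (m : ℤ)).inv)⟦2 * (n : ℤ)⟧' ≫
      (tensorSph (2 * (n : ℤ)) ((stdEven T).S (m : ℤ))).inv =
      (tensorSph (2 * (n : ℤ)) ((𝟙_ T)⟦2 * (m : ℤ)⟧)).inv ≫
        ((stdSph (T := T) (m : ℤ)).inv ▷ ((𝟙_ T)⟦2 * (n : ℤ)⟧)) := by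
    rw [Iso.comp_inv_eq, Category.assoc, tensorSph_naturality, Iso.inv_hom_id_assoc]
  have h4 : (tensorSph (2 * (n : ℤ)) ((stdEven T).S (m : ℤ))).inv =
      ((ρ_ ((stdEven T).S (m : ℤ))).inv)⟦2 * (n : ℤ)⟧' ≫
        (csh ((stdEven T).S (m : ℤ)) (2 * (n : ℤ)) (𝟙_ T)).inv := rfl
  rw [h4] at h3
  rw [reassoc_of% h3] at h1
  rw [← Iso.inv_comp_eq] at h1
  rw [MonoidalCategory.tensorHom_def, Category.assoc, ← Category.assoc, ← Category.assoc,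
    ← Category.assoc, ← Iso.eq_comp_inv]
  rw [Category.assoc, Category.assoc]
  exact h1.symm

end sh

section prod

variable {T : Type u} [Category.{0} T] [Preadditive T] [HasZeroObject T]
    [HasShift T ℤ] [∀ n : ℤ, (shiftFunctor T n).Additive] [Pretriangulated T] [IsTriangulated T]
    [MonoidalCategory T] [SymmetricCategory T] [TensorTriangulated T] [MonoidalClosed T]
    [HasCoproducts.{0} T] [HasProducts.{0} T] [StableCat T]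

variable {R N : T} [MonObj R]

/-- **the products of homotopy classes through even spheres and through shifts agree** -/
theorem gsmul_eq_mul (M : ModStr R N) {m n l : ℤ} (hm : 0 ≤ m) (hn : 0 ≤ n) (h : m + n = l)
    (h' : 2 * n + 2 * m = 2 * l) (a : (𝟙_ T)⟦2 * m⟧ ⟶ R) (y : (𝟙_ T)⟦2 * n⟧ ⟶ N) :
    gsmul M h ((stdSph m).hom ≫ a) ((stdSph n).hom ≫ y) = (stdSph l).hom ≫ mul M h' a y := by
  obtain ⟨m, rfl⟩ := Int.eq_ofNat_of_zero_le hm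
  obtain ⟨n, rfl⟩ := Int.eq_ofNat_of_zero_le hn
  obtain ⟨l, rfl⟩ := Int.eq_ofNat_of_zero_le (show 0 ≤ l by omega)
  have h1 := congrArg (fun g => g ≫ M.act) (ext_eq_nat h a y)
  simp only [Category.assoc] at h1
  refine h1.trans ?_
  unfold mul gc hat Vale.Agent.P221.T.ext fm
  simp only [Category.assoc]
  rfl

theorem mul_eq_gsmul (M : ModStr R N) {m n l : ℤ} (hm : 0 ≤ m) (hn : 0 ≤ n) (h : m + n = l)
    (h' : 2 * n + 2 * m = 2 * l) (a : (stdEven T).S m ⟶ R) (y : (stdEven T).S n ⟶ N) :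
    mul M h' ((stdSph m).inv ≫ a) ((stdSph n).inv ≫ y) = (stdSph l).inv ≫ gsmul M h a y := by
  rw [Iso.eq_inv_comp, ← gsmul_eq_mul M hm hn h h', Iso.hom_inv_id_assoc, Iso.hom_inv_id_assoc]

end prod

end Vale.Agent.P221.T.H924
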